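import Vale.Agent.P287Z.O.L.Defs2

/-!
# Interfaces between the blocks (propositions to be proved)
-/

open CategoryTheory Limits MvPolynomial Pretriangulated

namespace Vale.Agent.P287Z.O.L

open V

variable (W : MvPolynomial (Fin 6) ℂ) [(grA W).ContainsZero] [(grA W).IsClosedUnderKernels]
  [(grA W).IsClosedUnderCokernels] [(grA W).IsClosedUnderFiniteProducts] [(tors W).IsSerreClass]

/-! ## B2: free modules -/

/-- every map between free modules is given by a matrix -/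
def MatSt [FrOK W] : Prop :=
  ∀ {ι κ : Type} [Fintype ι] [Fintype κ] (q : ι → ℤ) (q' : κ → ℤ),
    (∀ g : FrA W q ⟶ FrA W q', ∃ f, ∃ hf : HgM q q' f, matA W f hf = g) ∧
    ∀ f g (hf : HgM q q' f) (hg : HgM q q' g), matA W f hf = matA W g hg ↔
      ∀ i j, Even (q j) → W ∣ f i j - g i j

/-- free modules are projective -/
def ProjSt [FrOK W] : Prop :=
  ∀ {ι : Type} [Fintype ι] (q : ι → ℤ), Projective (FrA W q)

/-- `T(E)` is acyclic -/
def AcySt [FrOK W] : Prop :=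
  ∀ {n : ℕ} (E : GMF W n) (k l r : ℤ), k + 1 = l → l + 1 = r →
    (ShortComplex.mk ((TT E).d k l) ((TT E).d l r) ((TT E).d_comp_d k l r)).Exact

/-! ## B3: matrix factorizations and the complexes `T(E)` -/

/-- maps from `T(E)` to bounded below complexes of free modules are null-homotopic -/
def NullSt [FrOK W] : Prop :=
  ∀ {n : ℕ} (E : GMF W n) (Y : CochainComplex (GA W) ℤ) (b : ℤ), Y.IsStrictlyGE b →
    (∀ k, ∃ (m : ℕ) (q : Fin m → ℤ), Nonempty (Y.X k ≅ FrA W q)) →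
    ∀ φ : TT E ⟶ Y, Nonempty (Homotopy φ 0)

/-- maps from bounded above complexes of projectives to `T(F)` are null-homotopic -/
def NullSt' [FrOK W] : Prop :=
  ∀ {n : ℕ} (F : GMF W n) (X : CochainComplex (GA W) ℤ) (b : ℤ), X.IsStrictlyLE b →
    (∀ k, Projective (X.X k)) → ∀ φ : X ⟶ TT F, Nonempty (Homotopy φ 0)

/-- Eisenbud's lifting: `Hom_K(T(E), T(F)) = Cl/Nh` -/
def EisSt [FrOK W] : Prop :=
  ∀ {m n : ℕ} (E : GMF W m) (F : GMF W n),
    (∀ φ : TT E ⟶ TT F, ∃ f, ∃ hf : Cl E F f, Nonempty (Homotopy φ (Tf hf _))) ∧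
    ∀ f (hf : Cl E F f), Nonempty (Homotopy (Tf hf (fun _ => True)) 0) ↔ Nh E F f

/-! ## B5: Ext between line bundles -/

/-- the degrees of the generators of the first module are larger than those of the second one -/
def Sep {ι κ : Type} (q : ι → ℤ) (q' : κ → ℤ) : Prop :=
  ∀ i j, Even (q i) → Even (q' j) → q' j - 4 ≤ q i

def HomSt [FrOK W] : Prop :=
  ∀ {ι κ : Type} [Fintype ι] [Fintype κ] (q : ι → ℤ) (q' : κ → ℤ), Sep q q' →
    Function.Bijective (fun f : FrA W q ⟶ FrA W q' => (piA W).map f)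

def ExtSt [FrOK W] : Prop :=
  ∀ {ι κ : Type} [Fintype ι] [Fintype κ] (q : ι → ℤ) (q' : κ → ℤ), Sep q q' →
    ∀ n : ℤ, 0 < n →
      ∀ f : (DerivedCategory.singleFunctor (Coh W) 0).obj ((piA W).obj (FrA W q)) ⟶
        ((DerivedCategory.singleFunctor (Coh W) 0).obj ((piA W).obj (FrA W q')))⟦n⟧, f = 0

/-! ## B7: the functor `F` -/

def FullSt [FrOK W] : Prop :=
  ∀ {m n : ℕ} (E : GMF W m) (F : GMF W n) (g : FD E ⟶ FD F), ∃ f, ∃ hf : Cl E F f, FDmap hf = g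

def FaithSt [FrOK W] : Prop :=
  ∀ {m n : ℕ} (E : GMF W m) (F : GMF W n) f (hf : Cl E F f), FDmap hf = 0 ↔ Nh E F f

/-- the canonical map from the target to the mapping cone -/
noncomputable def coneIn (n m : ℕ) : Matrix (Fin (n + m)) (Fin n) (MvPolynomial (Fin 6) ℂ) :=
  Matrix.reindex finSumFinEquiv (Equiv.refl _) (Matrix.fromRows 1 0)

def ConeSt [FrOK W] : Prop :=
  ∀ {m n : ℕ} (E : GMF W m) (F : GMF W n) f (hf : Cl E F f) (G : GMF W (n + m)),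
    G.p = Fin.append F.p (fun j => E.p j - 3) →
    G.d = Matrix.reindex finSumFinEquiv finSumFinEquiv (Matrix.fromBlocks F.d f 0 (-E.d)) →
    ∃ (hi : Cl F G (coneIn n m)) (h : FD G ⟶ (FD E)⟦(1 : ℤ)⟧),
      Triangle.mk (FDmap hf) (FDmap hi) h ∈ distTriang (DerivedCategory (Coh W))

/-- compatibility with all shifts (`E' = E[k]`) -/
def ShiftSt [FrOK W] : Prop :=
  ∀ {n : ℕ} (E E' : GMF W n) (k : ℤ), (∀ i, E'.p i = E.p i - 3 * k) →
    E'.d = (k.negOnePow : ℤ) • E.d → Nonempty (FD E' ≅ (FD E)⟦k⟧)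

def BddSt [FrOK W] : Prop :=
  ∀ {n : ℕ} (E : GMF W n), (DerivedCategory.TStructure.t (C := Coh W)).bounded (FD E)

/-! ## B8: the evaluation triangle -/

/-- `tw` is the functor `- ⊗ 𝒪(1)` (file `Twist`) -/
def PhiSt [FrOK W] (tw : DerivedCategory (Coh W) ⥤ DerivedCategory (Coh W)) : Prop :=
  ∀ {n : ℕ} (E E' : GMF W n), (∀ i, E'.p i = E.p i - 2) → E'.d = E.d →
    IsEvCone (OD W 0) (tw.obj (FD E)) (FD E')

/-- the same complex, twisted -/
def TwSt [FrOK W] (tw : DerivedCategory (Coh W) ⥤ DerivedCategory (Coh W)) : Prop :=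
  ∀ {n : ℕ} (E E' : GMF W n) (c : ℤ), (∀ i, E'.p i = E.p i - 2) → E'.d = E.d →
    Nonempty (tw.obj ((QPi W).obj (TL E c)) ≅ (QPi W).obj (TL E' (c - 1)))

/-! ## B9: syzygies -/

/-- `M'` is a first syzygy of `M` -/
def Syz [FrOK W] (M M' : GA W) : Prop :=
  ∃ (r : ℕ) (q : Fin r → ℤ) (f : M' ⟶ FrA W q) (g : FrA W q ⟶ M) (w : f ≫ g = 0),
    (ShortComplex.mk f g w).ShortExact

def GldSt [FrOK W] : Prop :=
  ∀ M : GA W, ∃ M₀ M₁ M₂ M₃ M₄ : GA W, Syz W M M₀ ∧ Syz W M₀ M₁ ∧ Syz W M₁ M₂ ∧ Syz W M₂ M₃ ∧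
    Syz W M₃ M₄ ∧
    ∃ (n : ℕ) (E : GMF W n) (i : M₄ ⟶ (TT E).X 1) (w : i ≫ (TT E).d 1 2 = 0),
      Mono i ∧ (ShortComplex.mk i ((TT E).d 1 2) w).Exact

/-! ## B10: essential surjectivity -/

/-- triangulated closure conditions -/
structure TriCl {𝒟 : Type 1} [Category.{1} 𝒟] [Preadditive 𝒟] [HasZeroObject 𝒟]
    [HasShift 𝒟 ℤ] [∀ n : ℤ, (shiftFunctor 𝒟 n).Additive] [Pretriangulated 𝒟]
    (I : 𝒟 → Prop) : Prop where
  iso : ∀ X Y : 𝒟, (X ≅ Y) → I X → I Y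
  zero : ∀ X : 𝒟, IsZero X → I X
  shift : ∀ (X : 𝒟) (n : ℤ), I X → I (X⟦n⟧)
  ext₂ : ∀ T ∈ distTriang 𝒟, I T.obj₁ → I T.obj₃ → I T.obj₂

/-- the Koszul relation between line bundles -/
def KosSt [FrOK W] : Prop :=
  ∀ (I : DerivedCategory (Coh W) → Prop), TriCl I → ∀ c : ℤ,
    ((∀ j : ℤ, 1 ≤ j → j ≤ 6 → I (OD W (c + j))) → I (OD W c)) ∧
    ((∀ j : ℤ, 1 ≤ j → j ≤ 6 → I (OD W (c - j))) → I (OD W c))

end Vale.Agent.P287Z.O.L
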