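import Vale.Agent.P287Z.O.L.B1
import Mathlib.Algebra.Homology.ShortComplex.ExactFunctor
import Mathlib.Algebra.Homology.ShortComplex.ModuleCat

/-!
# P287 port of P294-L, block B1, second half: exactness is objectwise, torsion modules form a Serre class
-/

open CategoryTheory Limits MvPolynomial ZeroObject

namespace Vale.Agent.P287Z.O.L

lemma mono_of_injective {M N : GrS} (φ : M ⟶ N) (h : ∀ a : ℤ, Function.Injective (φ.app ⟨a⟩)) :
    Mono φ := by
  have : ∀ X : Dg, Mono (φ.app X) := fun X => (ModuleCat.mono_iff_injective _).2 (h X.deg)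
  exact NatTrans.mono_of_mono_app φ

lemma epi_of_surjective {M N : GrS} (φ : M ⟶ N) (h : ∀ a : ℤ, Function.Surjective (φ.app ⟨a⟩)) :
    Epi φ := by
  have : ∀ X : Dg, Epi (φ.app X) := fun X => (ModuleCat.epi_iff_surjective _).2 (h X.deg)
  exact NatTrans.epi_of_epi_app φ

lemma sum_hom_apply {X Y : ModuleCat.{0} ℂ} {κ : Type*} (s : Finset κ) (f : κ → (X ⟶ Y)) (v : X) :
    (∑ i ∈ s, f i : X ⟶ Y) v = ∑ i ∈ s, f i v := by
  classical
  induction s using Finset.induction_on with
  | empty => rfl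
  | insert i s hi ih =>
    rw [Finset.sum_insert hi, Finset.sum_insert hi, ← ih]; rfl

/-! ### exactness is objectwise -/

lemma shortExact_app {S : ShortComplex GrS} (hS : S.ShortExact) (a : ℤ) :
    (S.map ((evaluation Dg (ModuleCat.{0} ℂ)).obj ⟨a⟩)).ShortExact :=
  hS.map_of_exact _

lemma exact_app {S : ShortComplex GrS} (hS : S.Exact) (a : ℤ) :
    (S.map ((evaluation Dg (ModuleCat.{0} ℂ)).obj ⟨a⟩)).Exact :=
  hS.map _

lemma exact_apply {S : ShortComplex GrS} (hS : S.Exact) (a : ℤ) (v : S.X₂.obj ⟨a⟩)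
    (hv : S.g.app ⟨a⟩ v = 0) : ∃ u : S.X₁.obj ⟨a⟩, S.f.app ⟨a⟩ u = v :=
  (ShortComplex.moduleCat_exact_iff _).1 (exact_app hS a) v hv

lemma exact_of_apply {S : ShortComplex GrS}
    (h : ∀ (a : ℤ) (v : S.X₂.obj ⟨a⟩), S.g.app ⟨a⟩ v = 0 → ∃ u : S.X₁.obj ⟨a⟩, S.f.app ⟨a⟩ u = v) :
    S.Exact := by
  rw [ShortComplex.exact_iff_isZero_homology, Functor.isZero_iff]
  intro X
  have h1 : (S.map ((evaluation Dg (ModuleCat.{0} ℂ)).obj X)).Exact :=
    (ShortComplex.moduleCat_exact_iff _).2 (h X.deg)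
  rw [ShortComplex.exact_iff_isZero_homology] at h1
  exact h1.of_iso (S.mapHomologyIso ((evaluation Dg (ModuleCat.{0} ℂ)).obj X)).symm

/-- finitely generated graded modules are closed under extensions -/
instance fg_ext : fg.IsClosedUnderExtensions where
  prop_X₂_of_shortExact {S} hS h1 h3 := by
    obtain ⟨n, a, g, h⟩ := h1
    obtain ⟨n', a', g', h'⟩ := h3
    have := hS.epi_g
    choose l hl using fun i => app_surjective S.g (⟨a' i⟩ : Dg) (g' i)
    let G : ∀ i : Fin n ⊕ Fin n', S.X₂.obj ⟨Sum.elim a a' i⟩ := fun i => match i with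
        | Sum.inl i => S.f.app ⟨a i⟩ (g i)
        | Sum.inr i => l i
    refine fg_of_finite (ι := Fin n ⊕ Fin n') (Sum.elim a a') G fun b => ?_
    rw [eq_top_iff]
    intro v _
    -- first: every element of the image of `f`
    have hf : ∀ u : S.X₁.obj ⟨b⟩, S.f.app ⟨b⟩ u ∈ gsp S.X₂ (Sum.elim a a') G b := by
      intro u
      have := Submodule.mem_map_of_mem (f := (S.f.app ⟨b⟩).hom) (h b u)
      rw [Submodule.map_span] at this
      refine Submodule.span_mono ?_ this
      rintro _ ⟨_, ⟨i, m, rfl⟩, rfl⟩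
      refine ⟨Sum.inl i, m, ?_⟩
      exact (congr_arg (fun k => k (g i)) (congr_arg ModuleCat.Hom.hom (S.f.naturality m))).symm
    -- second: every element of `X₃` has a lift in the span
    have hg : ∀ x ∈ Submodule.span ℂ
        {w | ∃ (i : Fin n') (m : (⟨a' i⟩ : Dg) ⟶ ⟨b⟩), S.X₃.map m (g' i) = w},
        ∃ y ∈ gsp S.X₂ (Sum.elim a a') G b, S.g.app ⟨b⟩ y = x := by
      intro x hx
      induction hx using Submodule.span_induction with
      | mem x hx =>
        obtain ⟨i, m, rfl⟩ := hx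
        refine ⟨S.X₂.map m (l i), Submodule.subset_span ⟨Sum.inr i, m, rfl⟩, ?_⟩
        rw [← hl i]
        exact congr_arg (fun k => k (l i)) (congr_arg ModuleCat.Hom.hom (S.g.naturality m))
      | zero => exact ⟨0, Submodule.zero_mem _, map_zero _⟩
      | add x y _ _ hx hy =>
        obtain ⟨x', hx', rfl⟩ := hx
        obtain ⟨y', hy', rfl⟩ := hy
        exact ⟨x' + y', Submodule.add_mem _ hx' hy', map_add _ _ _⟩
      | smul c x _ hx =>
        obtain ⟨x', hx', rfl⟩ := hx
        exact ⟨c • x', Submodule.smul_mem _ c hx', map_smul _ _ _⟩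
    obtain ⟨y, hy, hy'⟩ := hg (S.g.app ⟨b⟩ v) (h' b _)
    obtain ⟨u, hu⟩ := exact_apply hS.exact b (v - y) (by rw [map_sub, hy', sub_self])
    have : v = S.f.app ⟨b⟩ u + y := by rw [hu, sub_add_cancel]
    rw [this]
    exact Submodule.add_mem _ (hf u) hy

variable (W : MvPolynomial (Fin 6) ℂ)

/-! ### the inclusion `GA W ⥤ GrS` is exact -/

instance grA_ι_additive : (grA W).ι.Additive where

instance grA_ι_preservesFiniteLimits : PreservesFiniteLimits (grA W).ι := by
  have : ∀ {X Y : GA W} (f : X ⟶ Y), PreservesLimit (parallelPair f 0) (grA W).ι :=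
    fun f => (grA W).preservesKernels_ι f
  exact Functor.preservesFiniteLimits_of_preservesKernels _

instance grA_ι_preservesFiniteColimits : PreservesFiniteColimits (grA W).ι := by
  have : ∀ {X Y : GA W} (f : X ⟶ Y), PreservesColimit (parallelPair f 0) (grA W).ι :=
    fun f => (grA W).preservesCokernels_ι f
  exact Functor.preservesFiniteColimits_of_preservesCokernels _

/-! ### torsion modules -/

/-- modules which vanish in large degrees -/
def tors0 : ObjectProperty GrS := fun M => ∃ N : ℤ, ∀ a ≥ N, Subsingleton (M.obj ⟨a⟩)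

instance tors0_sub : tors0.IsClosedUnderSubobjects where
  prop_of_mono φ _ h := by
    obtain ⟨N, h⟩ := h
    refine ⟨N, fun a ha => ?_⟩
    have := h a ha
    exact (app_injective φ ⟨a⟩).subsingleton

instance tors0_quot : tors0.IsClosedUnderQuotients where
  prop_of_epi φ _ h := by
    obtain ⟨N, h⟩ := h
    refine ⟨N, fun a ha => ?_⟩
    have := h a ha
    exact (app_surjective φ ⟨a⟩).subsingleton

instance tors0_ext : tors0.IsClosedUnderExtensions where
  prop_X₂_of_shortExact {S} hS h1 h3 := by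
    obtain ⟨N, h1⟩ := h1
    obtain ⟨N', h3⟩ := h3
    refine ⟨max N N', fun a ha => ⟨fun v w => ?_⟩⟩
    have i1 := h1 a (le_trans (le_max_left _ _) ha)
    have i3 := h3 a (le_trans (le_max_right _ _) ha)
    obtain ⟨u, hu⟩ := exact_apply hS.exact a (v - w) (Subsingleton.elim _ _)
    rw [Subsingleton.elim u 0, map_zero] at hu
    exact (sub_eq_zero.1 hu.symm)

instance tors0_zero : tors0.ContainsZero where
  exists_zero := ⟨0, isZero_zero GrS, 0, fun a _ =>
    ModuleCat.subsingleton_of_isZero ((Functor.isZero_iff _).1 (isZero_zero GrS) ⟨a⟩)⟩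

instance tors0_serre : tors0.IsSerreClass where

instance tors_serre : (tors W).IsSerreClass :=
  inferInstanceAs (tors0.inverseImage (grA W).ι).IsSerreClass

/-! ### `GA W`: monomorphisms, epimorphisms, exactness are objectwise -/

lemma GA_app_injective {M N : GA W} (φ : M ⟶ N) [Mono φ] (a : ℤ) :
    Function.Injective (φ.hom.app ⟨a⟩) :=
  app_injective ((grA W).ι.map φ) ⟨a⟩

lemma GA_app_surjective {M N : GA W} (φ : M ⟶ N) [Epi φ] (a : ℤ) :
    Function.Surjective (φ.hom.app ⟨a⟩) :=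
  app_surjective ((grA W).ι.map φ) ⟨a⟩

lemma GA_mono_of_injective {M N : GA W} (φ : M ⟶ N)
    (h : ∀ a : ℤ, Function.Injective (φ.hom.app ⟨a⟩)) : Mono φ :=
  have := mono_of_injective ((grA W).ι.map φ) h
  (grA W).ι.mono_of_mono_map this

lemma GA_epi_of_surjective {M N : GA W} (φ : M ⟶ N)
    (h : ∀ a : ℤ, Function.Surjective (φ.hom.app ⟨a⟩)) : Epi φ :=
  have := epi_of_surjective ((grA W).ι.map φ) h
  (grA W).ι.epi_of_epi_map this

lemma GA_exact_iff (S : ShortComplex (GA W)) : S.Exact ↔ (S.map (grA W).ι).Exact :=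
  (S.exact_map_iff_of_faithful (grA W).ι).symm

lemma GA_exact_apply {S : ShortComplex (GA W)} (hS : S.Exact) (a : ℤ) (v : S.X₂.obj.obj ⟨a⟩)
    (hv : S.g.hom.app ⟨a⟩ v = 0) : ∃ u : S.X₁.obj.obj ⟨a⟩, S.f.hom.app ⟨a⟩ u = v :=
  exact_apply ((GA_exact_iff W S).1 hS) a v hv

lemma GA_exact_of_apply {S : ShortComplex (GA W)}
    (h : ∀ (a : ℤ) (v : S.X₂.obj.obj ⟨a⟩), S.g.hom.app ⟨a⟩ v = 0 →
      ∃ u : S.X₁.obj.obj ⟨a⟩, S.f.hom.app ⟨a⟩ u = v) : S.Exact :=
  (GA_exact_iff W S).2 (exact_of_apply h)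

lemma GA_isZero_iff (M : GA W) : IsZero M ↔ ∀ a : ℤ, Subsingleton (M.obj.obj ⟨a⟩) := by
  constructor
  · intro h a
    have h1 : IsZero M.obj := (grA W).ι.map_isZero h
    exact ModuleCat.subsingleton_of_isZero ((Functor.isZero_iff _).1 h1 ⟨a⟩)
  · intro h
    have h1 : IsZero M.obj := (Functor.isZero_iff _).2 fun X =>
      @ModuleCat.isZero_of_subsingleton _ _ _ (h X.deg)
    rw [IsZero.iff_id_eq_zero] at h1 ⊢
    exact (grA W).ι.map_injective h1

/-! ### the projection to `Coh W` -/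

instance piA_preservesFiniteLimits : PreservesFiniteLimits (piA W) :=
  ObjectProperty.SerreClassLocalization.preservesFiniteLimits (piA W) (tors W)

instance piA_preservesFiniteColimits : PreservesFiniteColimits (piA W) :=
  ObjectProperty.SerreClassLocalization.preservesFiniteColimits (piA W) (tors W)

/-- `π M = 0` iff `M` vanishes in large degrees -/
lemma piA_isZero_iff (M : GA W) :
    IsZero ((piA W).obj M) ↔ ∃ N : ℤ, ∀ a ≥ N, Subsingleton (M.obj.obj ⟨a⟩) :=
  ObjectProperty.SerreClassLocalization.isZero_obj_iff (piA W) (tors W) M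

noncomputable example : Abelian (Coh W) := inferInstance
noncomputable example : Pretriangulated (DbX W) := inferInstance

end Vale.Agent.P287Z.O.L
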