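import Vale.Agent.P287Z.O.L.Defs2
import Vale.Agent.P287Z.O.L.HgApi
import Vale.Agent.P287Z.O.L.B1

/-!
# Free graded modules: maps, generators, projectivity (P287 port of P294-L, block B2, first part)
-/

open CategoryTheory Limits MvPolynomial

namespace Vale.Agent.P287Z.O.L

open V

section Elt

variable {M N : GrS}

theorem mon_apply_of_eq {a b : ℤ} (m : Fin 6 →₀ ℕ) (h : a + (m.degree : ℤ) = b)
    (x : M.obj ⟨a⟩) : mon M m a b x = M.map (⟨m, h⟩ : (⟨a⟩ : Dg) ⟶ ⟨b⟩) x := by
  rw [mon_of_eq M m h]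

theorem act_apply_eq (f : MvPolynomial (Fin 6) ℂ) (a b : ℤ) (x : M.obj ⟨a⟩) :
    act M f a b x = ∑ m ∈ f.support, f.coeff m • mon M m a b x := by
  rw [act_eq]
  change (ModuleCat.Hom.hom _) x = _
  rw [ModuleCat.hom_sum, LinearMap.sum_apply]
  rfl

theorem act_add_apply (f g : MvPolynomial (Fin 6) ℂ) (a b : ℤ) (x : M.obj ⟨a⟩) :
    act M (f + g) a b x = act M f a b x + act M g a b x := by
  rw [act_add]; rfl

theorem act_sub_apply (f g : MvPolynomial (Fin 6) ℂ) (a b : ℤ) (x : M.obj ⟨a⟩) :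
    act M (f - g) a b x = act M f a b x - act M g a b x := by
  rw [act_sub]; rfl

theorem act_smul_apply (c : ℂ) (f : MvPolynomial (Fin 6) ℂ) (a b : ℤ) (x : M.obj ⟨a⟩) :
    act M (c • f) a b x = c • act M f a b x := by
  rw [act_smul]; rfl

theorem act_sum_apply {ι : Type*} (s : Finset ι) (f : ι → MvPolynomial (Fin 6) ℂ) (a b : ℤ)
    (x : M.obj ⟨a⟩) : act M (∑ i ∈ s, f i) a b x = ∑ i ∈ s, act M (f i) a b x := by
  rw [act_sum]
  change (ModuleCat.Hom.hom _) x = _
  rw [ModuleCat.hom_sum, LinearMap.sum_apply]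

theorem act_zero_apply (a b : ℤ) (x : M.obj ⟨a⟩) : act M 0 a b x = 0 := by
  rw [act_zero]; rfl

theorem act_one_apply (a : ℤ) (x : M.obj ⟨a⟩) : act M 1 a a x = x := by
  rw [act_one]; rfl

theorem act_natural_apply (φ : M ⟶ N) (f : MvPolynomial (Fin 6) ℂ) (a b : ℤ) (x : M.obj ⟨a⟩) :
    φ.app ⟨b⟩ (act M f a b x) = act N f a b (φ.app ⟨a⟩ x) :=
  congrArg (fun h => (ModuleCat.Hom.hom h) x) (act_natural φ f a b)

theorem act_mul_apply {f : MvPolynomial (Fin 6) ℂ} (g : MvPolynomial (Fin 6) ℂ) {a b : ℤ}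
    (hf : V.Hg (2 * (b - a)) f) (c : ℤ) (x : M.obj ⟨a⟩) :
    act M (f * g) a c x = act M g b c (act M f a b x) := by
  rw [act_mul M g hf c]; rfl

theorem map_act (g : MvPolynomial (Fin 6) ℂ) {a b c : ℤ} (hg : V.Hg (2 * (b - a)) g)
    (m : Fin 6 →₀ ℕ) (h : b + (m.degree : ℤ) = c) (x : M.obj ⟨a⟩) :
    M.map (⟨m, h⟩ : (⟨b⟩ : Dg) ⟶ ⟨c⟩) (act M g a b x) = act M (monomial m 1 * g) a c x := by
  rw [mul_comm, act_mul_apply (monomial m 1) hg c x, act_monomial, one_smul,
    mon_apply_of_eq m h]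

end Elt

section Free

variable {ι κ μ : Type} [Fintype ι] [Fintype κ] [Fintype μ] (W : MvPolynomial (Fin 6) ℂ)

section

variable {q : ι → ℤ}

theorem FrO.mk_congr {a : ℤ} {v w : ι → MvPolynomial (Fin 6) ℂ}
    {h : ∀ i, Hg (2 * a - q i) (v i)} {h' : ∀ i, Hg (2 * a - q i) (w i)} (e : v = w) :
    FrO.mk W v h = FrO.mk W w h' := by
  subst e; rfl

theorem FrO.mk_add {a : ℤ} {v w : ι → MvPolynomial (Fin 6) ℂ}
    (h : ∀ i, Hg (2 * a - q i) (v i)) (h' : ∀ i, Hg (2 * a - q i) (w i))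
    (h'' : ∀ i, Hg (2 * a - q i) ((v + w) i)) :
    FrO.mk W (v + w) h'' = FrO.mk W v h + FrO.mk W w h' := rfl

theorem FrO.mk_smul {a : ℤ} {v : ι → MvPolynomial (Fin 6) ℂ} (c : ℂ)
    (h : ∀ i, Hg (2 * a - q i) (v i)) (h' : ∀ i, Hg (2 * a - q i) ((c • v) i)) :
    FrO.mk W (c • v) h' = c • FrO.mk W v h := rfl

theorem FrO.mk_zero {a : ℤ} (h : ∀ i, Hg (2 * a - q i) ((0 : ι → MvPolynomial (Fin 6) ℂ) i)) :
    FrO.mk W (0 : ι → MvPolynomial (Fin 6) ℂ) h = 0 := rfl

theorem FrO.mk_eq_zero {a : ℤ} {v : ι → MvPolynomial (Fin 6) ℂ}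
    {h : ∀ i, Hg (2 * a - q i) (v i)} : FrO.mk W v h = 0 ↔ ∀ i, W ∣ v i := by
  rw [← FrO.mk_zero W (q := q) (a := a) (fun i => hga_zero _), FrO.mk_eq]
  simp

theorem FrO.mk_sum {τ : Type*} (s : Finset τ) {a : ℤ} (v : τ → ι → MvPolynomial (Fin 6) ℂ)
    (h : ∀ t i, Hg (2 * a - q i) (v t i))
    (h' : ∀ i, Hg (2 * a - q i) ((fun i => ∑ t ∈ s, v t i) i)) :
    FrO.mk W (fun i => ∑ t ∈ s, v t i) h' = ∑ t ∈ s, FrO.mk W (v t) (h t) := by
  classical
  induction s using Finset.induction_on with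
  | empty => rw [Finset.sum_empty]; exact FrO.mk_congr W (w := 0) (h' := fun i => hga_zero _) (by
      funext i; simp)
  | insert t s ht ih =>
    rw [Finset.sum_insert ht, ← ih (fun i => hga_sum s fun t _ => h t i),
      ← FrO.mk_add W (h t) (fun i => hga_sum s fun t _ => h t i)
        (fun i => hga_add (h t i) (hga_sum s fun t _ => h t i))]
    exact FrO.mk_congr W (by funext i; rw [Finset.sum_insert ht]; rfl)

theorem FrO.map_mk {a b : ℤ} (m : Fin 6 →₀ ℕ) (hm : a + (m.degree : ℤ) = b)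
    {v : ι → MvPolynomial (Fin 6) ℂ} (h : ∀ i, Hg (2 * a - q i) (v i))
    (h' : ∀ i, Hg (2 * b - q i) ((fun i => monomial m 1 * v i) i)) :
    (FrO W q).map (⟨m, hm⟩ : (⟨a⟩ : Dg) ⟶ ⟨b⟩) (FrO.mk W v h) =
      FrO.mk W (fun i => monomial m 1 * v i) h' := rfl

/-- the action of a homogeneous polynomial on a free module -/
theorem FrO.act_mk {a b : ℤ} {f : MvPolynomial (Fin 6) ℂ} (hf : Hg (2 * (b - a)) f)
    {v : ι → MvPolynomial (Fin 6) ℂ} (h : ∀ i, Hg (2 * a - q i) (v i))
    (h' : ∀ i, Hg (2 * b - q i) ((fun i => f * v i) i)) :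
    act (FrO W q) f a b (FrO.mk W v h) = FrO.mk W (fun i => f * v i) h' := by
  rw [act_apply_eq]
  have h1 : ∀ m ∈ f.support, a + (m.degree : ℤ) = b := fun m hm => by
    have := (hg_iff.1 hf) m hm
    lia
  have h2 : ∀ m (i : ι), Hg (2 * b - q i)
      (if m ∈ f.support then monomial m (f.coeff m) * v i else 0) := by
    intro m i
    split_ifs with hm
    · exact hga_mul' (hga_monomial _ ((hg_iff.1 hf) m hm)) (h i) (by ring)
    · exact hga_zero _
  have h3 : (fun i => f * v i) = fun i => ∑ m ∈ f.support,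
      (if m ∈ f.support then monomial m (f.coeff m) * v i else 0) := by
    funext i
    conv_lhs => rw [← MvPolynomial.support_sum_monomial_coeff f]
    rw [Finset.sum_mul]
    exact Finset.sum_congr rfl fun m hm => by rw [if_pos hm]
  rw [FrO.mk_congr W h3 (h' := fun i => hga_sum _ fun m _ => h2 m i),
    FrO.mk_sum W f.support _ h2]
  refine Finset.sum_congr rfl fun m hm => ?_
  rw [mon_apply_of_eq m (h1 m hm), FrO.map_mk W m (h1 m hm) h (fun i =>
    hga_mul' (hga_monomial 1 ((hg_iff.1 hf) m hm)) (h i) (by ring)),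
    ← FrO.mk_smul W _ _ (fun i => hga_smul _ (hga_mul' (hga_monomial 1 ((hg_iff.1 hf) m hm))
      (h i) (by ring)))]
  refine FrO.mk_congr W (funext fun i => ?_)
  rw [if_pos hm]
  change f.coeff m • (monomial m 1 * v i) = _
  rw [← smul_mul_assoc, smul_monomial, smul_eq_mul, mul_one]

theorem FrO.killed (hW : Hg 6 W) : killed W (FrO W q) := by
  intro a b
  by_cases hab : 2 * (b - a) = 6
  · ext x
    obtain ⟨v, h, rfl⟩ := FrO.mk_surj W x
    have h' : ∀ i, Hg (2 * b - q i) ((fun i => W * v i) i) := fun i =>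
      hga_mul' hW (h i) (by lia)
    change act (FrO W q) W a b (FrO.mk W v h) = 0
    rw [FrO.act_mk W (by rw [hab]; exact hW) h h', FrO.mk_eq_zero]
    exact fun i => dvd_mul_right _ _
  · exact act_eq_zero_of_hg _ hW hab

open Classical in
/-- the basis vectors (zero if the degree is odd) -/
noncomputable def gen (q : ι → ℤ) (i : ι) : (FrO W q).obj ⟨q i / 2⟩ :=
  if h : q i = 2 * (q i / 2) then FrO.mk W (Pi.single i 1) (fun j => by
    by_cases hj : j = i
    · subst hj
      rw [Pi.single_eq_same, ← h, sub_self]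
      exact hga_one
    · rw [Pi.single_eq_of_ne hj]
      exact hga_zero _) else 0

omit [Fintype ι] in
theorem hg_odd {a : ℤ} {i : ι} (h : q i ≠ 2 * (q i / 2)) {f : MvPolynomial (Fin 6) ℂ}
    (hf : Hg (2 * a - q i) f) : f = 0 :=
  hga_odd_eq_zero hf (by lia)

/-- every element is a combination of the basis vectors -/
theorem FrO.mk_eq_sum {a : ℤ} {v : ι → MvPolynomial (Fin 6) ℂ}
    (h : ∀ i, Hg (2 * a - q i) (v i)) :
    FrO.mk W v h = ∑ i, act (FrO W q) (v i) (q i / 2) a (gen W q i) := by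
  classical
  have h2 : ∀ (i j : ι), Hg (2 * a - q j) (if j = i then v i else 0) := by
    intro i j
    split_ifs with hj
    · rw [hj]; exact h i
    · exact hga_zero _
  have h3 : v = fun j => ∑ i, (if j = i then v i else 0) := by
    funext j
    simp
  rw [FrO.mk_congr W h3 (h' := fun j => hga_sum _ fun i _ => h2 i j),
    FrO.mk_sum W Finset.univ _ h2]
  refine Finset.sum_congr rfl fun i _ => ?_
  by_cases hi : q i = 2 * (q i / 2)
  · rw [gen, dif_pos hi, FrO.act_mk W (b := a) (by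
      have := h i
      rw [hi] at this
      convert this using 1
      ring)]
    · refine FrO.mk_congr W (funext fun j => ?_)
      by_cases hj : j = i
      · subst hj
        rw [if_pos rfl, Pi.single_eq_same, mul_one]
      · rw [if_neg hj, Pi.single_eq_of_ne hj, mul_zero]
    · intro j
      by_cases hj : j = i
      · subst hj
        simp only [Pi.single_eq_same, mul_one]
        exact h j
      · simp only [Pi.single_eq_of_ne hj, mul_zero]
        exact hga_zero _
  · have h4 : v i = 0 := hg_odd hi (h i)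
    have h5 : FrO.mk W (fun j => if j = i then v i else 0) (h2 i) = 0 :=
      (FrO.mk_eq_zero W).2 fun j => by rw [h4, ite_self]; exact dvd_zero _
    rw [h5, h4, act_zero_apply]

theorem FrO.fg : fg (FrO W q) := by
  classical
  refine fg_of_finite (fun i => q i / 2) (gen W q) fun b => ?_
  rw [eq_top_iff]
  intro x _
  obtain ⟨v, h, rfl⟩ := FrO.mk_surj W x
  rw [FrO.mk_eq_sum W h]
  refine Submodule.sum_mem _ fun i _ => ?_
  rw [act_apply_eq]
  refine Submodule.sum_mem _ fun m _ => Submodule.smul_mem _ _ ?_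
  by_cases hm : q i / 2 + (m.degree : ℤ) = b
  · rw [mon_apply_of_eq m hm]
    exact Submodule.subset_span ⟨i, _, rfl⟩
  · rw [mon_of_ne _ m hm]
    exact Submodule.zero_mem _

end

/-- **B2**: the free modules lie in `GA W` -/
theorem frOK (hW : Hg 6 W) : FrOK W := ⟨fun _ => ⟨FrO.killed W hW, FrO.fg W⟩⟩

/-! ## Maps out of free modules -/

/-- two maps out of a free module agree if they agree on the basis vectors -/
theorem FrO.hom_ext {q : ι → ℤ} {M : GrS} {f g : FrO W q ⟶ M}
    (h : ∀ i, q i = 2 * (q i / 2) → f.app _ (gen W q i) = g.app _ (gen W q i)) : f = g := by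
  ext a x
  obtain ⟨v, hv, rfl⟩ := FrO.mk_surj W x
  change f.app ⟨a.deg⟩ (FrO.mk W v hv) = g.app ⟨a.deg⟩ (FrO.mk W v hv)
  rw [FrO.mk_eq_sum W hv, map_sum, map_sum]
  refine Finset.sum_congr rfl fun i _ => ?_
  by_cases hi : q i = 2 * (q i / 2)
  · rw [act_natural_apply, act_natural_apply, h i hi]
  · rw [hg_odd hi (hv i), act_zero_apply, map_zero, map_zero]

section desc

variable {W} {q : ι → ℤ} {M : GrS}

/-- the value of the map attached to elements of degrees `q i / 2` -/
noncomputable def descL (hM : Vale.Agent.P287Z.O.L.killed W M) (hW : Hg 6 W)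
    (x : ∀ i, M.obj ⟨q i / 2⟩) (a : ℤ) :
    (frS q a ⧸ frW W q a) →ₗ[ℂ] M.obj ⟨a⟩ :=
  (frW W q a).liftQ
    { toFun := fun v => ∑ i, act M (v.1 i) (q i / 2) a (x i)
      map_add' := fun u v => by
        rw [← Finset.sum_add_distrib]
        exact Finset.sum_congr rfl fun i _ => act_add_apply _ _ _ _ _
      map_smul' := fun c v => by
        rw [RingHom.id_apply, Finset.smul_sum]
        exact Finset.sum_congr rfl fun i _ => act_smul_apply _ _ _ _ _ } (by
    intro v hv
    rw [LinearMap.mem_ker]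
    refine Finset.sum_eq_zero fun i _ => ?_
    obtain ⟨u, hu⟩ := hv i
    rw [hu, killed_act_mul hM hW u]
    rfl)

/-- the map of modules attached to elements of degrees `q i / 2` -/
noncomputable def desc (hM : Vale.Agent.P287Z.O.L.killed W M) (hW : Hg 6 W)
    (x : ∀ i, M.obj ⟨q i / 2⟩) : FrO W q ⟶ M where
  app a := ModuleCat.ofHom (descL hM hW x a.deg)
  naturality a b m := by
    ext y
    obtain ⟨v, rfl⟩ := Submodule.Quotient.mk_surjective _ y
    change ∑ i, act M (monomial m.1 1 * v.1 i) (q i / 2) b.deg (x i) =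
      M.map m (∑ i, act M (v.1 i) (q i / 2) a.deg (x i))
    rw [map_sum]
    refine Finset.sum_congr rfl fun i _ => ?_
    by_cases hi : q i = 2 * (q i / 2)
    · have := v.2 i
      rw [hi] at this
      exact (map_act (M := M) (v.1 i) (a := q i / 2) (b := a.deg) (c := b.deg) (by
        convert this using 1
        ring) m.1 m.2 (x i)).symm
    · rw [hg_odd hi (v.2 i), mul_zero, act_zero_apply, act_zero_apply, map_zero]

theorem desc_mk (hM : Vale.Agent.P287Z.O.L.killed W M) (hW : Hg 6 W)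
    (x : ∀ i, M.obj ⟨q i / 2⟩) {a : ℤ} {v : ι → MvPolynomial (Fin 6) ℂ}
    (h : ∀ i, Hg (2 * a - q i) (v i)) :
    (desc hM hW x).app ⟨a⟩ (FrO.mk W v h) = ∑ i, act M (v i) (q i / 2) a (x i) := rfl

theorem desc_gen (hM : Vale.Agent.P287Z.O.L.killed W M) (hW : Hg 6 W)
    (x : ∀ i, M.obj ⟨q i / 2⟩) (i : ι) (hi : q i = 2 * (q i / 2)) :
    (desc hM hW x).app _ (gen W q i) = x i := by
  classical
  rw [gen, dif_pos hi, desc_mk, Finset.sum_eq_single i]
  · rw [Pi.single_eq_same, act_one_apply]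
  · intro j _ hj
    rw [Pi.single_eq_of_ne hj, act_zero_apply]
  · intro h
    exact absurd (Finset.mem_univ i) h

end desc

/-! ## Maps between free modules -/

theorem matO_gen {q : ι → ℤ} {q' : κ → ℤ} (f : Matrix κ ι (MvPolynomial (Fin 6) ℂ))
    (hf : HgM q q' f) (i : ι) (hi : q i = 2 * (q i / 2)) :
    (matO W f hf).app _ (gen W q i) = FrO.mk W (fun k => f k i) (fun k => by
      rw [← hi]; exact hf k i) := by
  classical
  rw [gen, dif_pos hi, matO_mk]
  refine FrO.mk_congr W (funext fun k => ?_)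
  rw [Matrix.mulVec_single_one]
  rfl

/-- every map between free modules is given by a matrix -/
theorem matO_surj {q : ι → ℤ} {q' : κ → ℤ} (φ : FrO W q ⟶ FrO W q') :
    ∃ (f : Matrix κ ι (MvPolynomial (Fin 6) ℂ)) (hf : HgM q q' f), matO W f hf = φ := by
  classical
  choose v hv h using fun i => FrO.mk_surj W (φ.app _ (gen W q i))
  let f : Matrix κ ι (MvPolynomial (Fin 6) ℂ) := fun k i => if q i = 2 * (q i / 2) then v i k else 0
  have hf : HgM q q' f := by
    intro k i
    by_cases hi : q i = 2 * (q i / 2)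
    · have := hv i k
      rw [← hi] at this
      change Hg _ (if q i = 2 * (q i / 2) then v i k else 0)
      rw [if_pos hi]
      exact this
    · change Hg _ (if q i = 2 * (q i / 2) then v i k else 0)
      rw [if_neg hi]
      exact hga_zero _
  refine ⟨f, hf, FrO.hom_ext W fun i hi => ?_⟩
  rw [matO_gen W f hf i hi, ← h i]
  refine FrO.mk_congr W (funext fun k => ?_)
  exact if_pos hi

/-- a matrix acts as zero iff its relevant entries are divisible by `W` -/
theorem matO_eq_zero_iff {q : ι → ℤ} {q' : κ → ℤ} (f : Matrix κ ι (MvPolynomial (Fin 6) ℂ))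
    (hf : HgM q q' f) : matO W f hf = 0 ↔ ∀ k i, q i = 2 * (q i / 2) → W ∣ f k i := by
  constructor
  · intro h k i hi
    have h1 := matO_gen W f hf i hi
    rw [h] at h1
    have h2 := (FrO.mk_eq_zero W).1 (h1.symm.trans rfl) k
    exact h2
  · intro h
    refine FrO.hom_ext W fun i hi => ?_
    rw [matO_gen W f hf i hi]
    exact (FrO.mk_eq_zero W).2 fun k => h k i hi

end Free

end Vale.Agent.P287Z.O.L
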