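import Vale.Agent.P287Z.O.L.Props
import Vale.Agent.P287Z.O.L.Free
import Vale.Agent.P287Z.O.L.B1b

/-!
# Block B2: `MatSt`, `ProjSt`, `AcySt`, `FrOK` (P287 port of P294-L)
-/

set_option linter.unusedSectionVars false

open CategoryTheory Limits MvPolynomial

namespace Vale.Agent.P287Z.O.L

open V

variable (W : MvPolynomial (Fin 6) ℂ)

theorem hg_ten_of_isHomogeneous (h : W.IsHomogeneous 3) : Hg 6 W := by
  rw [hg_iff]
  intro m hm
  have h1 : m.degree = 3 := by
    have := h (mem_support_iff.1 hm)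
    rw [Finsupp.degree_eq_weight_one]
    exact this
  rw [h1]
  norm_num

instance frOK_of_fact [h : Fact (W.IsHomogeneous 3)] : FrOK W :=
  frOK W (hg_ten_of_isHomogeneous W h.out)

section

variable {ι κ : Type} [Fintype ι] [Fintype κ] {q : ι → ℤ} {q' : κ → ℤ}

theorem HgM.sub {f g : Matrix κ ι (MvPolynomial (Fin 6) ℂ)} (hf : HgM q q' f)
    (hg : HgM q q' g) : HgM q q' (f - g) := fun i j => hga_sub (hf i j) (hg i j)

theorem HgM.add {f g : Matrix κ ι (MvPolynomial (Fin 6) ℂ)} (hf : HgM q q' f)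
    (hg : HgM q q' g) : HgM q q' (f + g) := fun i j => hga_add (hf i j) (hg i j)

theorem HgM.neg {f : Matrix κ ι (MvPolynomial (Fin 6) ℂ)} (hf : HgM q q' f) :
    HgM q q' (-f) := fun i j => hga_neg (hf i j)

theorem HgM.smul (c : ℂ) {f : Matrix κ ι (MvPolynomial (Fin 6) ℂ)} (hf : HgM q q' f) :
    HgM q q' (c • f) := fun i j => hga_smul c (hf i j)

theorem HgM.zero : HgM q q' (0 : Matrix κ ι (MvPolynomial (Fin 6) ℂ)) := fun _ _ => hga_zero _

theorem HgM.one [DecidableEq ι] : HgM q q (1 : Matrix ι ι (MvPolynomial (Fin 6) ℂ)) := by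
  intro i j
  by_cases h : i = j
  · subst h
    rw [Matrix.one_apply_eq, sub_self]
    exact hga_one
  · rw [Matrix.one_apply_ne h]
    exact hga_zero _

theorem matO_add {f g : Matrix κ ι (MvPolynomial (Fin 6) ℂ)} (hf : HgM q q' f)
    (hg : HgM q q' g) (h : HgM q q' (f + g)) :
    matO W (f + g) h = matO W f hf + matO W g hg := by
  ext a x
  obtain ⟨v, hv, rfl⟩ := FrO.mk_surj W x
  change (matO W (f + g) h).app ⟨a.deg⟩ (FrO.mk W v hv) =
    (matO W f hf).app ⟨a.deg⟩ (FrO.mk W v hv) + (matO W g hg).app ⟨a.deg⟩ (FrO.mk W v hv)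
  rw [matO_mk, matO_mk, matO_mk, ← FrO.mk_add W _ _ (fun i =>
    hga_add (hf.mulVec hv i) (hg.mulVec hv i))]
  exact FrO.mk_congr W (Matrix.add_mulVec _ _ _)

theorem matO_smul (c : ℂ) {f : Matrix κ ι (MvPolynomial (Fin 6) ℂ)} (hf : HgM q q' f)
    (h : HgM q q' (c • f)) : matO W (c • f) h = c • matO W f hf := by
  ext a x
  obtain ⟨v, hv, rfl⟩ := FrO.mk_surj W x
  change (matO W (c • f) h).app ⟨a.deg⟩ (FrO.mk W v hv) =
    c • (matO W f hf).app ⟨a.deg⟩ (FrO.mk W v hv)
  rw [matO_mk, matO_mk, ← FrO.mk_smul W c _ (fun i => hga_smul c (hf.mulVec hv i))]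
  exact FrO.mk_congr W (Matrix.smul_mulVec _ _ _)

theorem matO_sub {f g : Matrix κ ι (MvPolynomial (Fin 6) ℂ)} (hf : HgM q q' f)
    (hg : HgM q q' g) (h : HgM q q' (f - g)) :
    matO W (f - g) h = matO W f hf - matO W g hg := by
  rw [eq_sub_iff_add_eq, ← matO_add W h hg (by rw [sub_add_cancel]; exact hf)]
  congr 1
  exact sub_add_cancel f g

theorem matO_one [DecidableEq ι] (h : HgM q q (1 : Matrix ι ι (MvPolynomial (Fin 6) ℂ))) :
    matO W 1 h = 𝟙 _ := by
  ext a x
  obtain ⟨v, hv, rfl⟩ := FrO.mk_surj W x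
  change (matO W 1 h).app ⟨a.deg⟩ (FrO.mk W v hv) = FrO.mk W v hv
  rw [matO_mk]
  exact FrO.mk_congr W (Matrix.one_mulVec v)

theorem matO_congr {f g : Matrix κ ι (MvPolynomial (Fin 6) ℂ)} (hf : HgM q q' f)
    (hg : HgM q q' g) (h : f = g) : matO W f hf = matO W g hg := by
  subst h; rfl

variable [FrOK W]

theorem matA_congr {f g : Matrix κ ι (MvPolynomial (Fin 6) ℂ)} (hf : HgM q q' f)
    (hg : HgM q q' g) (h : f = g) : matA W f hf = matA W g hg := by
  subst h; rfl

theorem matA_one [DecidableEq ι] (h : HgM q q (1 : Matrix ι ι (MvPolynomial (Fin 6) ℂ))) :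
    matA W 1 h = 𝟙 _ := by
  apply ObjectProperty.hom_ext
  exact matO_one W h

end

section

variable [FrOK W] [(grA W).ContainsZero] [(grA W).IsClosedUnderKernels]
  [(grA W).IsClosedUnderCokernels] [(grA W).IsClosedUnderFiniteProducts]

variable {ι κ : Type} [Fintype ι] [Fintype κ] {q : ι → ℤ} {q' : κ → ℤ}

theorem matA_add {f g : Matrix κ ι (MvPolynomial (Fin 6) ℂ)} (hf : HgM q q' f)
    (hg : HgM q q' g) (h : HgM q q' (f + g)) :
    matA W (f + g) h = matA W f hf + matA W g hg := by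
  apply ObjectProperty.hom_ext
  exact matO_add W hf hg h

theorem matA_sub {f g : Matrix κ ι (MvPolynomial (Fin 6) ℂ)} (hf : HgM q q' f)
    (hg : HgM q q' g) (h : HgM q q' (f - g)) :
    matA W (f - g) h = matA W f hf - matA W g hg := by
  apply ObjectProperty.hom_ext
  exact matO_sub W hf hg h

theorem matA_smul (c : ℂ) {f : Matrix κ ι (MvPolynomial (Fin 6) ℂ)} (hf : HgM q q' f)
    (h : HgM q q' (c • f)) : matA W (c • f) h = c • matA W f hf := by
  apply ObjectProperty.hom_ext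
  exact matO_smul W c hf h

/-- **B2** -/
theorem matSt : MatSt W := by
  intro ι κ _ _ q q'
  constructor
  · intro g
    obtain ⟨f, hf, h⟩ := matO_surj W (q := q) (q' := q') g.hom
    exact ⟨f, hf, ObjectProperty.hom_ext _ h⟩
  · intro f g hf hg
    have h1 : matA W f hf = matA W g hg ↔ matO W (f - g) (hf.sub hg) = 0 := by
      rw [matO_sub W hf hg, sub_eq_zero]
      constructor
      · intro h
        exact congrArg (fun u : FrA W q ⟶ FrA W q' => u.hom) h
      · intro h
        exact ObjectProperty.hom_ext _ h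
    rw [h1, matO_eq_zero_iff]
    constructor
    · intro h i j hj
      obtain ⟨r, hr⟩ := hj
      exact h i j (by lia)
    · intro h i j hj
      exact h i j ⟨q j / 2, by lia⟩

/-- maps out of `FrA` -/
theorem FrA.hom_ext {M : GA W} {f g : FrA W q ⟶ M}
    (h : ∀ i, q i = 2 * (q i / 2) → f.hom.app _ (gen W q i) = g.hom.app _ (gen W q i)) :
    f = g := ObjectProperty.hom_ext _ (FrO.hom_ext W h)

/-- maps out of `FrA`, existence -/
theorem FrA.exists_desc (hW : Hg 6 W) (M : GA W) (x : ∀ i, M.obj.obj ⟨q i / 2⟩) :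
    ∃ f : FrA W q ⟶ M, ∀ i, q i = 2 * (q i / 2) → f.hom.app _ (gen W q i) = x i :=
  ⟨ObjectProperty.homMk (desc M.property.1 hW x), fun i hi => desc_gen _ hW x i hi⟩

/-- **B2** -/
theorem projSt (hW : Hg 6 W) : ProjSt W := by
  intro ι _ q
  refine ⟨fun {E X} f e he => ?_⟩
  choose x hx using fun i => GA_app_surjective W e (q i / 2) (f.hom.app _ (gen W q i))
  obtain ⟨g, hg⟩ := FrA.exists_desc W hW E x
  refine ⟨g, FrA.hom_ext W fun i hi => ?_⟩
  change e.hom.app _ (g.hom.app _ (gen W q i)) = _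
  rw [hg i hi, hx i]

end

section

variable [FrOK W] [(grA W).ContainsZero] [(grA W).IsClosedUnderKernels]
  [(grA W).IsClosedUnderCokernels] [(grA W).IsClosedUnderFiniteProducts]

variable {W} {n : ℕ}

theorem qsel_true (E : GMF W n) (k : ℤ) (i : Fin n) :
    qsel E (fun _ => True) k i = E.p i - 3 * k := if_pos trivial

theorem mask_true {ι κ : Type} (f : Matrix κ ι (MvPolynomial (Fin 6) ℂ)) :
    mask (fun _ => True) (fun _ => True) f = f := by
  ext1 i j
  exact if_pos ⟨trivial, trivial⟩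

/-- **B2** -/
theorem acySt (hW : Hg 6 W) (h0 : W ≠ 0) : AcySt W := by
  intro n E k l r hkl hlr
  refine GA_exact_of_apply W fun a x hx => ?_
  obtain ⟨v, hv, rfl⟩ := FrO.mk_surj W (q := qsel E (fun _ => True) l) x
  change (((TT E).d l r).hom.app ⟨a⟩) (FrO.mk W v hv) = 0 at hx
  rw [T_d E _ l r hlr] at hx
  change (matO W _ (hgM_d E (fun _ => True) l r hlr)).app ⟨a⟩ (FrO.mk W v hv) = 0 at hx
  rw [matO_mk, FrO.mk_eq_zero] at hx
  have hv' : ∀ i, Hg (2 * a - (E.p i - 3 * l)) (v i) := fun i => by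
    rw [← qsel_true]; exact hv i
  have hdv : ∀ i, Hg (2 * a - (E.p i - 3 * r)) (E.d.mulVec v i) := fun i => by
    rw [Matrix.mulVec, dotProduct]
    exact hg_sum fun j => hg_mul (E.deg i j) (hv' j) (by lia)
  choose u hu using fun i => hx i
  have hx' : ∀ i, ∃ u, Hg (2 * a - (E.p i - 3 * r) - 6) u ∧ E.d.mulVec v i = W * u := fun i => by
    have h1 := hu i
    rw [mask_true] at h1
    exact exists_hg_of_eq_mul hW (hdv i) h1
  choose u hu hu' using hx'
  have h1 : v = E.d.mulVec u := by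
    have h2 : W • v = W • E.d.mulVec u := by
      have h3 : E.d.mulVec v = W • u := funext hu'
      rw [← Matrix.mulVec_smul, ← h3, Matrix.mulVec_mulVec, E.sq, Matrix.smul_mulVec,
        Matrix.one_mulVec]
    funext i
    exact mul_left_cancel₀ h0 (congrFun h2 i)
  have hu2 : ∀ i, Hg (2 * a - qsel E (fun _ => True) k i) (u i) := fun i => by
    rw [qsel_true]
    have := hu i
    convert this using 1
    lia
  refine ⟨FrO.mk W u hu2, ?_⟩
  change (((TT E).d k l).hom.app ⟨a⟩) (FrO.mk W u hu2) = _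
  rw [T_d E _ k l hkl]
  change (matO W _ (hgM_d E (fun _ => True) k l hkl)).app ⟨a⟩ (FrO.mk W u hu2) = _
  rw [matO_mk]
  refine FrO.mk_congr W ?_
  rw [mask_true, ← h1]

end

end Vale.Agent.P287Z.O.L
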