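import Vale.Agent.P287Z.O.L.Defs2
import Vale.Agent.P287Z.O.L.B1

/-!
# The twist `M(k)` on graded modules, on `Coh X` and on `D^b(Coh X)`
-/

set_option autoImplicit false

open CategoryTheory Limits MvPolynomial

namespace Vale.Agent.P287Z.O.L

/-- translation of degrees -/
noncomputable def Dg.sh (k : ℤ) : Dg ⥤ Dg where
  obj a := ⟨a.deg + k⟩
  map m := ⟨m.1, by rw [add_right_comm, m.2]⟩

/-- objects with the same degree are isomorphic -/
noncomputable def Dg.iso {a b : Dg} (h : a.deg = b.deg) : a ≅ b where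
  hom := ⟨0, by simpa using h⟩
  inv := ⟨0, by simpa using h.symm⟩
  hom_inv_id := Subtype.ext (add_zero _)
  inv_hom_id := Subtype.ext (add_zero _)

@[simp] lemma Dg.comp_val {a b c : Dg} (f : a ⟶ b) (g : b ⟶ c) : (f ≫ g).1 = f.1 + g.1 := rfl
@[simp] lemma Dg.id_val (a : Dg) : (𝟙 a : a ⟶ a).1 = 0 := rfl

/-- translation by `k` and by `-k` are inverse equivalences -/
noncomputable def Dg.shE (k : ℤ) : Dg ≌ Dg where
  functor := Dg.sh k
  inverse := Dg.sh (-k)
  unitIso := NatIso.ofComponents (fun a => Dg.iso (by simp [Dg.sh]))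
    (fun f => Subtype.ext ((add_zero _).trans (zero_add _).symm))
  counitIso := NatIso.ofComponents (fun a => Dg.iso (by simp [Dg.sh]))
    (fun f => Subtype.ext ((add_zero _).trans (zero_add _).symm))
  functor_unitIso_comp a := Subtype.ext (add_zero _)

/-- the twist `M(k)`, `M(k)_a = M_{a+k}`, on graded modules -/
noncomputable def twS (k : ℤ) : GrS ⥤ GrS := (Functor.whiskeringLeft _ _ _).obj (Dg.sh k)

@[simp] lemma twS_obj_obj (k : ℤ) (M : GrS) (a : ℤ) : ((twS k).obj M).obj ⟨a⟩ = M.obj ⟨a + k⟩ := rfl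

/-- the twist by `k` as an equivalence of graded modules -/
noncomputable def twSE (k : ℤ) : GrS ≌ GrS := ((Dg.shE k).congrLeft (E := ModuleCat.{0} ℂ)).symm

instance (k : ℤ) : (twS k).IsEquivalence := inferInstanceAs (twSE k).functor.IsEquivalence

/-- `M(k)(-k) ≅ M` -/
noncomputable def twSiso (k : ℤ) (M : GrS) : (twS k).obj ((twS (-k)).obj M) ≅ M :=
  (twSE k).counitIso.app M

lemma act_tw (M : GrS) (f : MvPolynomial (Fin 6) ℂ) (k a b : ℤ) :
    act ((twS k).obj M) f a b = act M f (a + k) (b + k) := by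
  unfold act
  refine Finset.sum_congr rfl fun m _ => ?_
  by_cases h : a + (m.degree : ℤ) = b
  · rw [dif_pos h, dif_pos (by rw [← h]; ring)]
    rfl
  · rw [dif_neg h, dif_neg (fun h' => h (by linarith))]
    rfl

variable {W : MvPolynomial (Fin 6) ℂ}

lemma killed_tw {M : GrS} (h : killed W M) (k : ℤ) : killed W ((twS k).obj M) := fun a b => by
  rw [act_tw, h]
  rfl

lemma fg_tw {M : GrS} (h : fg M) (k : ℤ) : fg ((twS k).obj M) := by
  obtain ⟨r, d, g, hg⟩ := h
  let e : ∀ i : Fin r, (⟨d i⟩ : Dg) ⟶ ⟨d i - k + k⟩ := fun i => ⟨0, by simp⟩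
  refine ⟨r, fun i => d i - k, fun i => M.map (e i) (g i), fun b v => ?_⟩
  refine (Submodule.span_le (p := Submodule.span ℂ _)).2 ?_ (hg (b + k) v)
  rintro _ ⟨i, m, rfl⟩
  have hm := m.2
  change d i + (m.1.degree : ℤ) = b + k at hm
  let u : (⟨d i - k + k⟩ : Dg) ⟶ ⟨b + k⟩ := ⟨m.1, by
    change d i - k + k + (m.1.degree : ℤ) = b + k
    linarith⟩
  refine Submodule.subset_span ⟨i, ⟨m.1, ?_⟩, ?_⟩
  · change d i - k + (m.1.degree : ℤ) = b
    linarith
  · change M.map u (M.map (e i) (g i)) = M.map m (g i)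
    rw [← ModuleCat.comp_apply, ← M.map_comp]
    have h1 : e i ≫ u = m := Subtype.ext (zero_add _)
    rw [h1]

variable (W) in
/-- the twist on finitely generated graded `A`-modules -/
noncomputable def twA (k : ℤ) : GA W ⥤ GA W :=
  (grA W).lift ((grA W).ι ⋙ twS k) fun M => ⟨killed_tw M.property.1 k, fg_tw M.property.2 k⟩

instance (k : ℤ) : (twS k).Full := inferInstance
instance (k : ℤ) : ((grA W).ι ⋙ twS k).Full := inferInstance
instance (k : ℤ) : (twA W k).Full :=
  Functor.Full.of_comp_faithful_iso (G := (grA W).ι) (H := (grA W).ι ⋙ twS k) (Iso.refl _)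
instance (k : ℤ) : (twA W k).Faithful :=
  Functor.Faithful.of_comp_iso (G := (grA W).ι) (H := (grA W).ι ⋙ twS k) (Iso.refl _)

/-- `M(k)(-k) ≅ M` -/
noncomputable def twAiso (k : ℤ) (M : GA W) : (twA W k).obj ((twA W (-k)).obj M) ≅ M :=
  ObjectProperty.isoMk _ (twSiso k M.obj)

instance (k : ℤ) : (twA W k).EssSurj where
  mem_essImage M := ⟨(twA W (-k)).obj M, ⟨twAiso k M⟩⟩

instance (k : ℤ) : (twA W k).IsEquivalence where

instance (k : ℤ) : (twS k).Additive where

instance (k : ℤ) : (twA W k).Additive where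
  map_add {X Y f g} := by
    apply ObjectProperty.hom_ext
    rfl

instance (k : ℤ) : (twS k).Linear ℂ where

instance (k : ℤ) : (twA W k).Linear ℂ where
  map_smul {X Y} f c := by
    apply ObjectProperty.hom_ext
    rfl

lemma tors_tw {M : GA W} (k : ℤ) (h : tors W M) : tors W ((twA W k).obj M) := by
  obtain ⟨N, hN⟩ := h
  exact ⟨N - k, fun a ha => hN (a + k) (by linarith)⟩

variable [(tors W).IsSerreClass]

lemma tw_inverts (k : ℤ) : (tors W).isoModSerre.IsInvertedBy (twA W k ⋙ piA W) := by
  intro M N f hf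
  change IsIso ((piA W).map ((twA W k).map f))
  rw [ObjectProperty.SerreClassLocalization.isIso_map_iff (piA W) (tors W)]
  refine ⟨?_, ?_⟩
  · exact (tors W).prop_of_iso (PreservesKernel.iso (twA W k) f) (tors_tw k hf.1)
  · exact (tors W).prop_of_iso (PreservesCokernel.iso (twA W k) f) (tors_tw k hf.2)

variable (W) in
/-- the twist `F(k)` of coherent sheaves -/
noncomputable def twC (k : ℤ) : Coh W ⥤ Coh W :=
  Localization.lift (twA W k ⋙ piA W) (tw_inverts k) (piA W)

variable (W) in
/-- twists commute with the passage to sheaves -/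
noncomputable def piTw (k : ℤ) : piA W ⋙ twC W k ≅ twA W k ⋙ piA W :=
  Localization.fac _ _ _


instance : PreservesFiniteLimits (piA W) :=
  ObjectProperty.SerreClassLocalization.preservesFiniteLimits (piA W) (tors W)

instance : PreservesFiniteColimits (piA W) :=
  ObjectProperty.SerreClassLocalization.preservesFiniteColimits (piA W) (tors W)

instance (k : ℤ) : (twC W k).Additive :=
  (Localization.functor_additive_iff (piA W) (tors W).isoModSerre (twC W k)).2
    (Functor.additive_of_iso (piTw W k).symm)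

instance (k : ℤ) : PreservesFiniteLimits (twA W k) :=
  PreservesLimitsOfSize.preservesFiniteLimits.{0, 0} (twA W k)

instance (k : ℤ) : PreservesFiniteColimits (twA W k) :=
  PreservesColimitsOfSize.preservesFiniteColimits.{0, 0} (twA W k)

instance (k : ℤ) : PreservesFiniteLimits (twC W k) := by
  have := comp_preservesFiniteLimits (twA W k) (piA W)
  rw [← ObjectProperty.SerreClassLocalization.preservesFiniteLimits_comp_iff (piA W) (tors W)]
  exact preservesFiniteLimits_of_natIso (piTw W k).symm

instance (k : ℤ) : PreservesFiniteColimits (twC W k) := by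
  have := comp_preservesFiniteColimits (twA W k) (piA W)
  rw [← ObjectProperty.SerreClassLocalization.preservesFiniteColimits_comp_iff (piA W) (tors W)]
  exact preservesFiniteColimits_of_natIso (piTw W k).symm

instance (k : ℤ) : (twC W k).Linear ℂ := by
  have : Localization.Lifting (piA W) (tors W).isoModSerre (twA W k ⋙ piA W) (twC W k) :=
    ⟨piTw W k⟩
  rw [← Localization.functor_linear_iff (piA W) (tors W).isoModSerre ℂ (twA W k ⋙ piA W)
    (twC W k)]
  infer_instance

/-! ## Composition of twists -/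

/-- `M(k)(l) = M(k+l)` -/
noncomputable def twSadd (k l r : ℤ) (h : k + l = r) : twS k ⋙ twS l ≅ twS r :=
  NatIso.ofComponents (fun M => NatIso.ofComponents
    (fun a => M.mapIso (Dg.iso (by
      change a.deg + l + k = a.deg + r
      rw [← h]; ring)))
    (fun f => by
      change M.map _ ≫ M.map _ = M.map _ ≫ M.map _
      rw [← M.map_comp, ← M.map_comp]
      congr 1
      exact Subtype.ext ((add_zero _).trans (zero_add _).symm)))
    (fun f => by
      ext a x
      exact (NatTrans.naturality_apply f _ x).symm)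

/-- `M(0) = M` -/
noncomputable def twS0 : twS 0 ≅ 𝟭 GrS :=
  NatIso.ofComponents (fun M => NatIso.ofComponents
    (fun a => M.mapIso (Dg.iso (add_zero a.deg)))
    (fun f => by
      change M.map _ ≫ M.map _ = M.map _ ≫ M.map _
      rw [← M.map_comp, ← M.map_comp]
      congr 1
      exact Subtype.ext ((add_zero _).trans (zero_add _).symm)))
    (fun f => by
      ext a x
      exact (NatTrans.naturality_apply f _ x).symm)

omit [(tors W).IsSerreClass] in
variable (W) in
/-- `M(k)(l) = M(k+l)` -/
noncomputable def twAadd (k l r : ℤ) (h : k + l = r) : twA W k ⋙ twA W l ≅ twA W r :=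
  NatIso.ofComponents (fun M => ObjectProperty.isoMk _ ((twSadd k l r h).app M.obj))
    (fun f => by
      apply ObjectProperty.hom_ext
      exact (twSadd k l r h).hom.naturality f.hom)

variable (W) in
/-- `M(0) = M` -/
noncomputable def twA0 : twA W 0 ≅ 𝟭 (GA W) :=
  NatIso.ofComponents (fun M => ObjectProperty.isoMk _ (twS0.app M.obj))
    (fun f => by
      apply ObjectProperty.hom_ext
      exact twS0.hom.naturality f.hom)

variable (W) in
/-- `F(k)(l) = F(k+l)` for coherent sheaves -/
noncomputable def twCadd (k l r : ℤ) (h : k + l = r) : twC W k ⋙ twC W l ≅ twC W r :=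
  letI : Localization.Lifting (piA W) (tors W).isoModSerre (twA W k ⋙ twA W l ⋙ piA W)
      (twC W k ⋙ twC W l) :=
    ⟨(Functor.associator _ _ _).symm ≪≫ Functor.isoWhiskerRight (piTw W k) (twC W l) ≪≫
      Functor.associator _ _ _ ≪≫ Functor.isoWhiskerLeft (twA W k) (piTw W l)⟩
  letI : Localization.Lifting (piA W) (tors W).isoModSerre (twA W r ⋙ piA W) (twC W r) :=
    ⟨piTw W r⟩
  Localization.liftNatIso (piA W) (tors W).isoModSerre (twA W k ⋙ twA W l ⋙ piA W)
    (twA W r ⋙ piA W) _ _ ((Functor.associator _ _ _).symm ≪≫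
      Functor.isoWhiskerRight (twAadd W k l r h) (piA W))

variable (W) in
/-- `F(0) = F` -/
noncomputable def twC0 : twC W 0 ≅ 𝟭 (Coh W) :=
  letI : Localization.Lifting (piA W) (tors W).isoModSerre (twA W 0 ⋙ piA W) (twC W 0) :=
    ⟨piTw W 0⟩
  Localization.liftNatIso (piA W) (tors W).isoModSerre (twA W 0 ⋙ piA W) (piA W) _ _
    (Functor.isoWhiskerRight (twA0 W) (piA W) ≪≫ Functor.leftUnitor _)

variable (W) in
/-- the twist by `k` is an equivalence -/
noncomputable def twCE (k : ℤ) : Coh W ≌ Coh W :=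
  CategoryTheory.Equivalence.mk (twC W k) (twC W (-k))
    ((twCadd W k (-k) 0 (by simp)) ≪≫ twC0 W).symm
    (twCadd W (-k) k 0 (by simp) ≪≫ twC0 W)

instance (k : ℤ) : (twC W k).IsEquivalence := inferInstanceAs (twCE W k).functor.IsEquivalence

/-! ## The derived category -/

variable (W) in
/-- the twist `E(k)` on the derived category of `Coh X` -/
noncomputable def twD (k : ℤ) : DerivedCategory (Coh W) ⥤ DerivedCategory (Coh W) :=
  (twC W k).mapDerivedCategory

noncomputable instance (k : ℤ) : (twD W k).CommShift ℤ :=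
  inferInstanceAs ((twC W k).mapDerivedCategory.CommShift ℤ)

instance (k : ℤ) : (twD W k).IsTriangulated :=
  inferInstanceAs ((twC W k).mapDerivedCategory.IsTriangulated)

instance (k : ℤ) : (twD W k).Linear ℂ :=
  inferInstanceAs ((twC W k).mapDerivedCategory.Linear ℂ)

instance (k : ℤ) : (twD W k).Additive := inferInstance

section general

universe w₁ w₂ w₃ v₁ v₂ v₃ u₁ u₂ u₃

variable {C₁ : Type u₁} [Category.{v₁} C₁] [Abelian C₁] [HasDerivedCategory.{w₁} C₁]
  {C₂ : Type u₂} [Category.{v₂} C₂] [Abelian C₂] [HasDerivedCategory.{w₂} C₂]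
  {C₃ : Type u₃} [Category.{v₃} C₃] [Abelian C₃] [HasDerivedCategory.{w₃} C₃]
  (F : C₁ ⥤ C₂) [F.Additive] [PreservesFiniteLimits F] [PreservesFiniteColimits F]
  (G : C₂ ⥤ C₃) [G.Additive] [PreservesFiniteLimits G] [PreservesFiniteColimits G]
  (H : C₁ ⥤ C₃) [H.Additive] [PreservesFiniteLimits H] [PreservesFiniteColimits H]

/-- derived functors of compositions of exact functors -/
noncomputable def mapDComp (e : F ⋙ G ≅ H) :
    F.mapDerivedCategory ⋙ G.mapDerivedCategory ≅ H.mapDerivedCategory :=
  letI : Localization.Lifting DerivedCategory.Q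
      (HomologicalComplex.quasiIso C₁ (ComplexShape.up ℤ))
      (F.mapHomologicalComplex _ ⋙ G.mapHomologicalComplex _ ⋙ DerivedCategory.Q)
      (F.mapDerivedCategory ⋙ G.mapDerivedCategory) :=
    ⟨(Functor.associator _ _ _).symm ≪≫
      Functor.isoWhiskerRight F.mapDerivedCategoryFactors G.mapDerivedCategory ≪≫
      Functor.associator _ _ _ ≪≫
      Functor.isoWhiskerLeft (F.mapHomologicalComplex _) G.mapDerivedCategoryFactors⟩
  Localization.liftNatIso DerivedCategory.Q
    (HomologicalComplex.quasiIso C₁ (ComplexShape.up ℤ))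
    (F.mapHomologicalComplex _ ⋙ G.mapHomologicalComplex _ ⋙ DerivedCategory.Q)
    (H.mapHomologicalComplex _ ⋙ DerivedCategory.Q) _ _
    ((Functor.associator _ _ _).symm ≪≫
      Functor.isoWhiskerRight (Functor.mapHomologicalComplexCompIso e _) DerivedCategory.Q)

/-- the derived functor of the identity -/
noncomputable def mapDId (F : C₁ ⥤ C₁) [F.Additive] [PreservesFiniteLimits F]
    [PreservesFiniteColimits F] (e : F ≅ 𝟭 C₁) :
    F.mapDerivedCategory ≅ 𝟭 _ :=
  Localization.liftNatIso DerivedCategory.Q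
    (HomologicalComplex.quasiIso C₁ (ComplexShape.up ℤ))
    (F.mapHomologicalComplex _ ⋙ DerivedCategory.Q)
    DerivedCategory.Q _ _
    (Functor.isoWhiskerRight (NatIso.mapHomologicalComplex e _ ≪≫
      Functor.mapHomologicalComplexIdIso _ _) DerivedCategory.Q ≪≫ Functor.leftUnitor _)

lemma mapD_bounded {X : DerivedCategory C₁}
    (hX : (DerivedCategory.TStructure.t (C := C₁)).bounded X) :
    (DerivedCategory.TStructure.t (C := C₂)).bounded (F.mapDerivedCategory.obj X) := by
  obtain ⟨⟨a, ha⟩, ⟨b, hb⟩⟩ := hX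
  constructor
  · refine ⟨a, ⟨?_⟩⟩
    obtain ⟨K, e, _⟩ := ha.ge
    exact ⟨(F.mapHomologicalComplex _).obj K,
      F.mapDerivedCategory.mapIso e ≪≫ F.mapDerivedCategoryFactors.app K, inferInstance⟩
  · refine ⟨b, ⟨?_⟩⟩
    obtain ⟨K, e, _⟩ := hb.le
    exact ⟨(F.mapHomologicalComplex _).obj K,
      F.mapDerivedCategory.mapIso e ≪≫ F.mapDerivedCategoryFactors.app K, inferInstance⟩

end general

variable (W) in
/-- `E(k)(l) = E(k+l)` -/
noncomputable def twDadd (k l r : ℤ) (h : k + l = r) : twD W k ⋙ twD W l ≅ twD W r :=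
  mapDComp _ _ _ (twCadd W k l r h)

variable (W) in
/-- `E(0) = E` -/
noncomputable def twD0 : twD W 0 ≅ 𝟭 (DerivedCategory (Coh W)) := mapDId _ (twC0 W)

variable (W) in
/-- the twist by `k` is an equivalence -/
noncomputable def twDE (k : ℤ) : DerivedCategory (Coh W) ≌ DerivedCategory (Coh W) :=
  CategoryTheory.Equivalence.mk (twD W k) (twD W (-k))
    ((twDadd W k (-k) 0 (by simp)) ≪≫ twD0 W).symm
    (twDadd W (-k) k 0 (by simp) ≪≫ twD0 W)

instance (k : ℤ) : (twD W k).IsEquivalence := inferInstanceAs (twDE W k).functor.IsEquivalence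

variable (W) in
/-- the twist of (the image in the derived category of) a complex of graded modules is computed
termwise -/
noncomputable def twQ (k : ℤ) :
    QPi W ⋙ twD W k ≅ (twA W k).mapHomologicalComplex (ComplexShape.up ℤ) ⋙ QPi W :=
  Functor.associator _ _ _ ≪≫
    Functor.isoWhiskerLeft _ (twC W k).mapDerivedCategoryFactors ≪≫
    (Functor.associator _ _ _).symm ≪≫
    Functor.isoWhiskerRight (Functor.mapHomologicalComplexCompIso (piTw W k) _ ≪≫
      (Functor.mapHomologicalComplexCompIso (Iso.refl (twA W k ⋙ piA W)) _).symm) _ ≪≫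
    Functor.associator _ _ _

variable (W) in
/-- the twist of a complex concentrated in one degree -/
noncomputable def twDsingle (k n : ℤ) :
    DerivedCategory.singleFunctor (Coh W) n ⋙ twD W k ≅
      twC W k ⋙ DerivedCategory.singleFunctor (Coh W) n :=
  (twC W k).mapDerivedCategorySingleFunctor n

/-! ## The bounded derived category -/

variable (W) in
/-- the twist `E(k)` on `D^b(Coh X)` -/
noncomputable def twB (k : ℤ) : DbX W ⥤ DbX W :=
  (DerivedCategory.TStructure.t (C := Coh W)).bounded.lift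
    ((DerivedCategory.TStructure.t (C := Coh W)).bounded.ι ⋙ twD W k)
    fun X => mapD_bounded (twC W k) X.property

end Vale.Agent.P287Z.O.L
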