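import Vale.Agent.P287Z.O.L.Twist
import Vale.Agent.P287Z.O.L.Props

/-!
# Twists of free modules, of the complexes `T(E)` and of the sheaves `𝒪(n)`
-/

set_option autoImplicit false

open CategoryTheory Limits MvPolynomial

namespace Vale.Agent.P287Z.O.L

open V

section Free

variable {ι κ : Type} [Fintype ι] [Fintype κ]

theorem hgt_odd {a : ℤ} {f : MvPolynomial (Fin 6) ℂ} (hf : Hg a f) (ha : Odd a) : f = 0 := by
  ext s
  rw [coeff_zero]
  by_contra h
  have h1 := hf h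
  have h2 : Even (Finsupp.weight (fun _ : Fin 6 => (2 : ℤ)) s) := by
    rw [Finsupp.weight_apply, Finsupp.sum]
    refine Finset.even_sum _ fun i _ => ?_
    rw [nsmul_eq_mul]
    exact (even_two).mul_left _
  rw [h1] at h2
  exact (Int.not_even_iff_odd.2 ha) h2

/-- `q'` is `q - 2k` on the generators which are not dropped -/
def TwQ (k : ℤ) (q q' : ι → ℤ) : Prop :=
  ∀ i, q' i = q i - 2 * k ∨ (Odd (q i) ∧ Odd (q' i))

omit [Fintype ι] in
theorem TwQ.frS_eq {k : ℤ} {q q' : ι → ℤ} (h : TwQ k q q') (a : ℤ) :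
    frS q (a + k) = frS q' a := by
  have key : ∀ (v : ι → MvPolynomial (Fin 6) ℂ) i, Hg (2 * (a + k) - q i) (v i) ↔
      Hg (2 * a - q' i) (v i) := by
    intro v i
    rcases h i with h1 | ⟨h1, h2⟩
    · rw [show 2 * a - q' i = 2 * (a + k) - q i by rw [h1]; ring]
    · constructor
      · intro hv
        rw [hgt_odd hv ((even_two_mul _).sub_odd h1)]
        exact isWeightedHomogeneous_zero _ _ _
      · intro hv
        rw [hgt_odd hv ((even_two_mul _).sub_odd h2)]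
        exact isWeightedHomogeneous_zero _ _ _
  ext v
  exact forall_congr' fun i => key v i

variable {W : MvPolynomial (Fin 6) ℂ}

/-- the twist of a free module -/
noncomputable def frT {k : ℤ} {q q' : ι → ℤ} (h : TwQ k q q') :
    (twS k).obj (FrO W q) ≅ FrO W q' :=
  NatIso.ofComponents (fun a => (Submodule.Quotient.equiv (frW W q (a.deg + k)) (frW W q' a.deg)
      (LinearEquiv.ofEq _ _ (h.frS_eq a.deg)) (by
        ext v
        constructor
        · rintro ⟨u, hu, rfl⟩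
          exact hu
        · intro hv
          exact ⟨⟨v.1, by rw [h.frS_eq]; exact v.2⟩, hv, rfl⟩)).toModuleIso)
    (fun {a b} m => by
      ext x
      obtain ⟨v, rfl⟩ := Submodule.Quotient.mk_surjective _ x
      rfl)

theorem frT_hom_mk {k : ℤ} {q q' : ι → ℤ} (h : TwQ k q q') (a : ℤ)
    (v : frS q (a + k)) :
    (frT (W := W) h).hom.app ⟨a⟩ (Submodule.Quotient.mk v) =
      (Submodule.Quotient.mk (⟨v.1, by rw [← h.frS_eq]; exact v.2⟩ : frS q' a) :
        frS q' a ⧸ frW W q' a) := rfl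

theorem frT_nat {k : ℤ} {q q' : ι → ℤ} (h : TwQ k q q') {r r' : κ → ℤ} (h' : TwQ k r r')
    (f : Matrix κ ι (MvPolynomial (Fin 6) ℂ)) (hf : HgM q r f) (hf' : HgM q' r' f) :
    (twS k).map (matO W f hf) ≫ (frT h').hom = (frT h).hom ≫ matO W f hf' := by
  ext a x
  obtain ⟨v, rfl⟩ := Submodule.Quotient.mk_surjective _ x
  rfl

variable [FrOK W]

/-- the twist of a free `A`-module -/
noncomputable def frTA {k : ℤ} {q q' : ι → ℤ} (h : TwQ k q q') :
    (twA W k).obj (FrA W q) ≅ FrA W q' :=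
  ObjectProperty.isoMk _ (frT h)

theorem frTA_nat {k : ℤ} {q q' : ι → ℤ} (h : TwQ k q q') {r r' : κ → ℤ} (h' : TwQ k r r')
    (f : Matrix κ ι (MvPolynomial (Fin 6) ℂ)) (hf : HgM q r f) (hf' : HgM q' r' f) :
    (twA W k).map (matA W f hf) ≫ (frTA h').hom = (frTA h).hom ≫ matA W f hf' := by
  apply ObjectProperty.hom_ext
  exact frT_nat h h' f hf hf'

end Free

section T

variable {W : MvPolynomial (Fin 6) ℂ} {n m : ℕ} [FrOK W]

omit [FrOK W] in
theorem twQ_qsel {E E' : GMF W n} {k : ℤ} (hp : ∀ i, E'.p i = E.p i - 2 * k)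
    (P P' : ℤ → Prop) [DecidablePred P] [DecidablePred P'] (hP : ∀ x, P' (x - 2 * k) ↔ P x)
    (j : ℤ) : TwQ k (qsel E P j) (qsel E' P' j) := by
  intro i
  have h1 : P' (E'.p i - 3 * j) ↔ P (E.p i - 3 * j) := by
    rw [hp, ← hP (E.p i - 3 * j)]
    rw [show E.p i - 2 * k - 3 * j = E.p i - 3 * j - 2 * k by ring]
  unfold qsel
  by_cases h : P (E.p i - 3 * j)
  · left
    rw [if_pos h, if_pos (h1.2 h), hp]
    ring
  · right
    rw [if_neg h, if_neg (fun h' => h (h1.1 h'))]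
    exact ⟨odd_one, odd_one⟩

omit [FrOK W] in
theorem mask_tw {E E' : GMF W n} {F F' : GMF W m} {k : ℤ} (hp : ∀ i, E'.p i = E.p i - 2 * k)
    (hq : ∀ i, F'.p i = F.p i - 2 * k)
    (P P' : ℤ → Prop) [DecidablePred P] [DecidablePred P'] (hP : ∀ x, P' (x - 2 * k) ↔ P x)
    (j l : ℤ) (f : Matrix (Fin m) (Fin n) (MvPolynomial (Fin 6) ℂ)) :
    mask (fun i => P' (F'.p i - 3 * l)) (fun i => P' (E'.p i - 3 * j)) f =
      mask (fun i => P (F.p i - 3 * l)) (fun i => P (E.p i - 3 * j)) f := by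
  have h1 : ∀ i, P' (E'.p i - 3 * j) ↔ P (E.p i - 3 * j) := fun i => by
    rw [hp, ← hP (E.p i - 3 * j), show E.p i - 2 * k - 3 * j = E.p i - 3 * j - 2 * k by ring]
  have h2 : ∀ i, P' (F'.p i - 3 * l) ↔ P (F.p i - 3 * l) := fun i => by
    rw [hq, ← hP (F.p i - 3 * l), show F.p i - 2 * k - 3 * l = F.p i - 3 * l - 2 * k by ring]
  ext1 i j
  unfold mask
  simp only [h1, h2]

/-- the twist of the complex `T(E)` -/
noncomputable def twT {E E' : GMF W n} {k : ℤ} (hp : ∀ i, E'.p i = E.p i - 2 * k) (hd : E'.d = E.d)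
    (P P' : ℤ → Prop) [DecidablePred P] [DecidablePred P'] [Cvx P] [Cvx P']
    (hP : ∀ x, P' (x - 2 * k) ↔ P x) :
    ((twA W k).mapHomologicalComplex (ComplexShape.up ℤ)).obj (T E P) ≅ T E' P' :=
  HomologicalComplex.Hom.isoOfComponents (fun j => frTA (twQ_qsel hp P P' hP j)) (by
    intro i j hij
    have h1 : i + 1 = j := hij
    rw [Functor.mapHomologicalComplex_obj_d, T_d _ _ _ _ h1, T_d _ _ _ _ h1]
    unfold Td
    have h2 : mask (fun i => P' (E'.p i - 3 * j)) (fun l => P' (E'.p l - 3 * i)) E'.d =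
      mask (fun i => P (E.p i - 3 * j)) (fun l => P (E.p l - 3 * i)) E.d := by
      rw [hd]
      exact mask_tw hp hp P P' hP i j E.d
    have h3 := hgM_d E' P' i j h1
    have h4 : HgM (qsel E' P' i) (qsel E' P' j)
        (mask (fun i => P (E.p i - 3 * j)) (fun l => P (E.p l - 3 * i)) E.d) := by
      rw [← h2]
      exact h3
    have h5 : matA W _ h3 = matA W _ h4 := by
      congr 1
    rw [h5]
    exact (frTA_nat (twQ_qsel hp P P' hP i) (twQ_qsel hp P P' hP j) _ (hgM_d E P i j h1) h4).symm)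

/-- the twist of the complexes `T(E)` is natural -/
theorem twT_nat {E E' : GMF W n} {F F' : GMF W m} {k : ℤ}
    (hp : ∀ i, E'.p i = E.p i - 2 * k) (hd : E'.d = E.d)
    (hq : ∀ i, F'.p i = F.p i - 2 * k) (he : F'.d = F.d)
    (P P' : ℤ → Prop) [DecidablePred P] [DecidablePred P'] [Cvx P] [Cvx P']
    (hP : ∀ x, P' (x - 2 * k) ↔ P x) {f : Matrix (Fin m) (Fin n) (MvPolynomial (Fin 6) ℂ)}
    (hf : Cl E F f) (hf' : Cl E' F' f) :
    ((twA W k).mapHomologicalComplex (ComplexShape.up ℤ)).map (Tf hf P) ≫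
      (twT hq he P P' hP).hom = (twT hp hd P P' hP).hom ≫ Tf hf' P' := by
  ext1 j
  have h3 := hgM_f hf' P' j
  have h2 := mask_tw hp hq P P' hP j j f
  have h4 : HgM (qsel E' P' j) (qsel F' P' j)
      (mask (fun i => P (F.p i - 3 * j)) (fun l => P (E.p l - 3 * j)) f) := by
    rw [← h2]
    exact h3
  have h5 : matA W _ h3 = matA W _ h4 := by
    congr 1
  change (twA W k).map (matA W _ _) ≫ (frTA _).hom = (frTA _).hom ≫ matA W _ h3
  rw [h5]
  exact frTA_nat (twQ_qsel hp P P' hP j) (twQ_qsel hq P P' hP j) _ (hgM_f hf P j) h4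

variable [(tors W).IsSerreClass]

/-- the twist of `π T_{≤ c}(E)` -/
noncomputable def twQT {E E' : GMF W n} {k : ℤ} (hp : ∀ i, E'.p i = E.p i - 2 * k) (hd : E'.d = E.d)
    (P P' : ℤ → Prop) [DecidablePred P] [DecidablePred P'] [Cvx P] [Cvx P']
    (hP : ∀ x, P' (x - 2 * k) ↔ P x) :
    (twD W k).obj ((QPi W).obj (T E P)) ≅ (QPi W).obj (T E' P') :=
  (twQ W k).app _ ≪≫ (QPi W).mapIso (twT hp hd P P' hP)

/-- `T_{≤ c}(E)(k) = T_{≤ c-k}(E(k))` in the derived category -/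
noncomputable def twTL {E E' : GMF W n} {k : ℤ} (hp : ∀ i, E'.p i = E.p i - 2 * k) (hd : E'.d = E.d)
    (c c' : ℤ) (hc : c' = c - k) :
    (twD W k).obj ((QPi W).obj (TL E c)) ≅ (QPi W).obj (TL E' c') :=
  twQT hp hd _ _ fun x => by
    rw [hc]
    constructor <;> intro h <;> linarith

variable (W) in
theorem twSt : TwSt W (twD W 1) := fun E E' c hp hd =>
  ⟨twTL (k := 1) (by simpa using hp) hd c (c - 1) rfl⟩

variable (W) in
/-- `𝒪(n)(k) = 𝒪(n + k)` -/
noncomputable def twOD (k n : ℤ) (r : ℤ) (h : n + k = r) : (twD W k).obj (OD W n) ≅ OD W r :=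
  (twDsingle W k 0).app _ ≪≫ (DerivedCategory.singleFunctor (Coh W) 0).mapIso
    ((piTw W k).app _ ≪≫ (piA W).mapIso (frTA (fun _ => Or.inl (by rw [← h]; ring))))

end T

end Vale.Agent.P287Z.O.L
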