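import Vale.Agent.P287Z.O.L.Tcx

/-!
# Bounds and vanishing for `T_{≤ c}`, `T_{> c}` (P287 port of P294-L)
-/

set_option linter.unusedSectionVars false

open CategoryTheory Limits MvPolynomial

namespace Vale.Agent.P287Z.O.L

open V

variable {W : MvPolynomial (Fin 6) ℂ} {n m ν : ℕ} [FrOK W]

section

variable {ι κ : Type} [Fintype ι] [Fintype κ] {q : ι → ℤ} {q' : κ → ℤ}

/-- maps from generators of small degree to generators of large degree are zero -/
theorem FrA_hom_eq_zero (h : ∀ i j, Even (q j) → Even (q' i) → q j < q' i)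
    (f : FrA W q ⟶ FrA W q') : f = 0 := by
  obtain ⟨g, hg, rfl⟩ := (matSt W q q').1 f
  refine (matA_ext hg HgM.zero fun i j hj hi => ?_).trans
    (matA_eq_zero W _ HgM.zero fun i j => dvd_zero _)
  rw [hg_neg (hg i j) (by have := h i j hj hi; lia), Matrix.zero_apply, sub_zero]
  exact dvd_zero _

variable [(grA W).ContainsZero] [(grA W).IsClosedUnderKernels]
    [(grA W).IsClosedUnderCokernels] [(grA W).IsClosedUnderFiniteProducts]

theorem FrA_isZero (h : ∀ i, ¬ Even (q i)) : IsZero (FrA W q) := by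
  rw [IsZero.iff_id_eq_zero]
  exact FrA_hom_eq_zero (fun i j hj _ => absurd hj (h j)) _

end

section

variable [(grA W).ContainsZero] [(grA W).IsClosedUnderKernels]
    [(grA W).IsClosedUnderCokernels] [(grA W).IsClosedUnderFiniteProducts]

theorem TX_isZero (E : GMF W n) (P : ℤ → Prop) [DecidablePred P] (k : ℤ)
    (h : ∀ i, ¬ P (E.p i - 3 * k)) : IsZero (TX E P k) :=
  FrA_isZero fun i hi => h i (qsel_even hi)

/-- a bound for the charges -/
def bd (E : GMF W n) (c : ℤ) : ℤ := (∑ i, |E.p i|) + |2 * c| + 1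

theorem bd_le (E : GMF W n) (c : ℤ) (i : Fin n) : |E.p i| + |2 * c| + 1 ≤ bd E c := by
  have : |E.p i| ≤ ∑ i, |E.p i| :=
    Finset.single_le_sum (f := fun i => |E.p i|) (fun i _ => abs_nonneg _) (Finset.mem_univ i)
  rw [bd]
  lia

theorem TL_ge (E : GMF W n) (c : ℤ) : (TL E c).IsStrictlyGE (-bd E c) := by
  rw [CochainComplex.isStrictlyGE_iff]
  intro k hk
  refine TX_isZero E _ k fun i hi => ?_
  have h1 := bd_le E c i
  have h2 : E.p i - 3 * k ≤ 2 * c := hi
  have h3 := neg_abs_le (E.p i)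
  have h4 := le_abs_self (2 * c)
  have h5 := abs_nonneg (E.p i)
  have h6 := abs_nonneg (2 * c)
  lia

theorem TG_le (E : GMF W n) (c : ℤ) : (TG E c).IsStrictlyLE (bd E c) := by
  rw [CochainComplex.isStrictlyLE_iff]
  intro k hk
  refine TX_isZero E _ k fun i hi => ?_
  have h1 := bd_le E c i
  have h2 : 2 * c < E.p i - 3 * k := hi
  have h3 := le_abs_self (E.p i)
  have h4 := neg_abs_le (2 * c)
  have h5 := abs_nonneg (E.p i)
  have h6 := abs_nonneg (2 * c)
  lia

/-- all maps `T_{≤ c}(E)[k] → T_{> c}(F)` are zero -/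
theorem TL_TG_zero (E : GMF W m) (F : GMF W n) (c k : ℤ) (φ : (TL E c)⟦k⟧ ⟶ TG F c) : φ = 0 := by
  ext1 i
  have key : ∀ f : TX E (· ≤ 2 * c) (i + k) ⟶ TX F (2 * c < ·) i, f = 0 := fun f => by
    refine FrA_hom_eq_zero (fun a b hb ha => ?_) f
    have h1 := qsel_even hb
    have h2 := qsel_even ha
    rw [qsel, qsel, if_pos h1, if_pos h2]
    exact lt_of_le_of_lt h1 h2
  exact key (φ.f i)

/-- all maps `T_{≤ c}(E) → T_{> c}(F)[k]` are zero -/
theorem TL_TG_zero' (E : GMF W m) (F : GMF W n) (c k : ℤ) (φ : TL E c ⟶ (TG F c)⟦k⟧) : φ = 0 := by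
  ext1 i
  have key : ∀ f : TX E (· ≤ 2 * c) i ⟶ TX F (2 * c < ·) (i + k), f = 0 := fun f => by
    refine FrA_hom_eq_zero (fun a b hb ha => ?_) f
    have h1 := qsel_even hb
    have h2 := qsel_even ha
    rw [qsel, qsel, if_pos h1, if_pos h2]
    exact lt_of_le_of_lt h1 h2
  exact key (φ.f i)

/-- `0 → T_{≤ c}(E) → T(E) → T_{> c}(E) → 0` -/
noncomputable def TLG (E : GMF W n) (c : ℤ) : ShortComplex (CochainComplex (GA W) ℤ) :=
  TS E (· ≤ 2 * c) (2 * c < ·) (fun _ => True) (cpt_le_true c) (cpt_true_lt c)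
    (fun _ h h' => absurd (lt_of_lt_of_le h' h) (lt_irrefl _))

/-- the splittings -/
noncomputable def TLGσ (E : GMF W n) (c k : ℤ) :
    ((TLG E c).map (HomologicalComplex.eval (GA W) _ k)).Splitting :=
  TSplit E (· ≤ 2 * c) (2 * c < ·) (fun _ => True) (cpt_le_true c) (cpt_true_lt c)
    (fun _ h h' => absurd (lt_of_lt_of_le h' h) (lt_irrefl _))
    (fun a => iff_of_true trivial (le_or_gt a (2 * c))) k

theorem TLG_X₁ (E : GMF W n) (c : ℤ) : (TLG E c).X₁ = TL E c := rfl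
theorem TLG_X₂ (E : GMF W n) (c : ℤ) : (TLG E c).X₂ = TT E := rfl
theorem TLG_X₃ (E : GMF W n) (c : ℤ) : (TLG E c).X₃ = TG E c := rfl
theorem TLG_f (E : GMF W n) (c : ℤ) : (TLG E c).f = TLι E c := rfl
theorem TLG_g (E : GMF W n) (c : ℤ) : (TLG E c).g = TGπ E c := rfl

/-- functoriality in closed maps -/
noncomputable def TLGmap {E : GMF W m} {F : GMF W n}
    {f : Matrix (Fin n) (Fin m) (MvPolynomial (Fin 6) ℂ)} (hf : Cl E F f) (c : ℤ) :
    TLG E c ⟶ TLG F c where
  τ₁ := Tf hf (· ≤ 2 * c)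
  τ₂ := Tf hf (fun _ => True)
  τ₃ := Tf hf (2 * c < ·)
  comm₁₂ := TLι_natural hf c
  comm₂₃ := TGπ_natural hf c

end

end Vale.Agent.P287Z.O.L
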