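import Vale.Agent.P287Z.O.L.Defs

/-!
# Free graded modules and the complexes attached to a graded matrix factorization
-/

open CategoryTheory Limits MvPolynomial

namespace Vale.Agent.P287Z.O.L

open V

section Free

variable {ι κ μ : Type} [Fintype ι] [Fintype κ] [Fintype μ]

/-- The part of degree `a` of the free graded `ℂ[x₀,…,x₅]`-module with basis vectors of (doubled)
degrees `q i`. -/
def frS (q : ι → ℤ) (a : ℤ) : Submodule ℂ (ι → MvPolynomial (Fin 6) ℂ) where
  carrier := {v | ∀ i, Hg (2 * a - q i) (v i)}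
  zero_mem' := fun _ => isWeightedHomogeneous_zero _ _ _
  add_mem' := fun h h' i => (h i).add (h' i)
  smul_mem' := fun c _ h i => Submodule.smul_mem (weightedHomogeneousSubmodule ℂ _ _) c (h i)

theorem hg_monomial (m : Fin 6 →₀ ℕ) (c : ℂ) : Hg (2 * (m.degree : ℤ)) (monomial m c) := by
  refine isWeightedHomogeneous_monomial _ _ _ ?_
  rw [Finsupp.weight_apply, Finsupp.sum, Finsupp.degree_apply, Nat.cast_sum, Finset.mul_sum]
  refine Finset.sum_congr rfl fun i _ => ?_
  rw [nsmul_eq_mul, mul_comm]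

theorem hg_mul {a b c : ℤ} {f g : MvPolynomial (Fin 6) ℂ} (hf : Hg a f) (hg : Hg b g)
    (h : a + b = c) : Hg c (f * g) := by
  subst h
  exact hf.mul hg

theorem hg_sum {a : ℤ} {f : ι → MvPolynomial (Fin 6) ℂ} (h : ∀ i, Hg a (f i)) :
    Hg a (∑ i, f i) :=
  Submodule.sum_mem (weightedHomogeneousSubmodule ℂ _ _) fun i _ => h i

/-- multiplication by a monomial -/
noncomputable def frMon (q : ι → ℤ) {a b : ℤ} (m : Fin 6 →₀ ℕ) (h : a + (m.degree : ℤ) = b) :
    frS q a →ₗ[ℂ] frS q b where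
  toFun v := ⟨fun i => monomial m 1 * v.1 i, fun i => hg_mul (hg_monomial m 1) (v.2 i) (by
    rw [← h]; ring)⟩
  map_add' u v := Subtype.ext (funext fun i => mul_add (monomial m 1) (u.1 i) (v.1 i))
  map_smul' c v := Subtype.ext (funext fun i => by
    change monomial m 1 * (c • v.1 i) = c • (monomial m 1 * v.1 i)
    rw [mul_smul_comm])

variable (W : MvPolynomial (Fin 6) ℂ)

/-- the vectors divisible by `W` -/
def frW (q : ι → ℤ) (a : ℤ) : Submodule ℂ (frS q a) where
  carrier := {v | ∀ i, W ∣ v.1 i}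
  zero_mem' := fun _ => dvd_zero _
  add_mem' := fun h h' i => dvd_add (h i) (h' i)
  smul_mem' := fun c v h i => by
    change W ∣ c • v.1 i
    rw [MvPolynomial.smul_eq_C_mul]
    exact Dvd.dvd.mul_left (h i) _

theorem frMon_mem (q : ι → ℤ) {a b : ℤ} (m : Fin 6 →₀ ℕ) (h : a + (m.degree : ℤ) = b) :
    frW W q a ≤ (frW W q b).comap (frMon q m h) :=
  fun _ hv i => Dvd.dvd.mul_left (hv i) _

/-- The free graded module over `A = ℂ[x₀,…,x₅]/(W)` with basis vectors of (doubled) degrees `q i`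
(basis vectors with `q i` odd are ignored), as a graded `ℂ[x₀,…,x₅]`-module. -/
noncomputable def FrO (q : ι → ℤ) : GrS where
  obj a := ModuleCat.of ℂ (frS q a.deg ⧸ frW W q a.deg)
  map {a b} m := ModuleCat.ofHom ((frW W q a.deg).mapQ (frW W q b.deg) (frMon q m.1 m.2)
    (frMon_mem W q m.1 m.2))
  map_id a := by
    ext v
    change Submodule.Quotient.mk _ = Submodule.Quotient.mk v
    congr 1
    refine Subtype.ext (funext fun i => ?_)
    change monomial 0 1 * v.1 i = v.1 i
    rw [← C_apply, C_1, one_mul]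
  map_comp {a b c} m m' := by
    ext v
    change Submodule.Quotient.mk _ = Submodule.Quotient.mk _
    congr 1
    refine Subtype.ext (funext fun i => ?_)
    change monomial (m.1 + m'.1) 1 * v.1 i = monomial m'.1 1 * (monomial m.1 1 * v.1 i)
    rw [← mul_assoc, monomial_mul, one_mul, add_comm]

/-- the class of a homogeneous vector -/
noncomputable def FrO.mk {q : ι → ℤ} {a : ℤ} (v : ι → MvPolynomial (Fin 6) ℂ) (h : ∀ i, Hg (2 * a - q i) (v i)) :
    (FrO W q).obj ⟨a⟩ := Submodule.Quotient.mk (⟨v, h⟩ : frS q a)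

theorem FrO.mk_surj {q : ι → ℤ} {a : ℤ} (x : (FrO W q).obj ⟨a⟩) : ∃ v h, FrO.mk W v h = x := by
  obtain ⟨v, rfl⟩ := Submodule.Quotient.mk_surjective _ x
  exact ⟨v.1, v.2, rfl⟩

theorem FrO.mk_eq {q : ι → ℤ} {a : ℤ} {v w : ι → MvPolynomial (Fin 6) ℂ}
    {h : ∀ i, Hg (2 * a - q i) (v i)} {h' : ∀ i, Hg (2 * a - q i) (w i)} :
    FrO.mk W v h = FrO.mk W w h' ↔ ∀ i, W ∣ v i - w i :=
  Submodule.Quotient.eq _

/-- matrices of homogeneous polynomials -/
def HgM (q : ι → ℤ) (q' : κ → ℤ) (f : Matrix κ ι (MvPolynomial (Fin 6) ℂ)) : Prop :=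
  ∀ i j, Hg (q j - q' i) (f i j)

theorem HgM.mulVec {q : ι → ℤ} {q' : κ → ℤ} {f : Matrix κ ι (MvPolynomial (Fin 6) ℂ)}
    (hf : HgM q q' f) {a : ℤ} {v : ι → MvPolynomial (Fin 6) ℂ} (hv : ∀ i, Hg (2 * a - q i) (v i)) :
    ∀ i, Hg (2 * a - q' i) (f.mulVec v i) := fun i => by
  rw [Matrix.mulVec, dotProduct]
  exact hg_sum fun j => hg_mul (hf i j) (hv j) (by ring)

theorem mulVec_mul_left (f : Matrix κ ι (MvPolynomial (Fin 6) ℂ)) (p : MvPolynomial (Fin 6) ℂ)
    (v : ι → MvPolynomial (Fin 6) ℂ) : f.mulVec (fun j => p * v j) = fun i => p * f.mulVec v i := by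
  funext i
  rw [Matrix.mulVec, Matrix.mulVec, dotProduct, dotProduct, Finset.mul_sum]
  exact Finset.sum_congr rfl fun j _ => mul_left_comm _ _ _

/-- action of a matrix on homogeneous vectors -/
noncomputable def frMat {q : ι → ℤ} {q' : κ → ℤ} (f : Matrix κ ι (MvPolynomial (Fin 6) ℂ))
    (hf : HgM q q' f) (a : ℤ) : frS q a →ₗ[ℂ] frS q' a where
  toFun v := ⟨f.mulVec v.1, hf.mulVec v.2⟩
  map_add' u v := Subtype.ext (Matrix.mulVec_add f u.1 v.1)
  map_smul' c v := Subtype.ext (Matrix.mulVec_smul f c v.1)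

theorem frMat_mem {q : ι → ℤ} {q' : κ → ℤ} (f : Matrix κ ι (MvPolynomial (Fin 6) ℂ))
    (hf : HgM q q' f) (a : ℤ) : frW W q a ≤ (frW W q' a).comap (frMat f hf a) :=
  fun _ hv i => Finset.dvd_sum fun j _ => Dvd.dvd.mul_left (hv j) _

/-- the map of free modules attached to a matrix -/
noncomputable def matO {q : ι → ℤ} {q' : κ → ℤ} (f : Matrix κ ι (MvPolynomial (Fin 6) ℂ))
    (hf : HgM q q' f) : FrO W q ⟶ FrO W q' where
  app a := ModuleCat.ofHom ((frW W q a.deg).mapQ (frW W q' a.deg) (frMat f hf a.deg)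
    (frMat_mem W f hf a.deg))
  naturality a b m := by
    ext x
    obtain ⟨v, rfl⟩ := Submodule.Quotient.mk_surjective _ x
    change Submodule.Quotient.mk _ = Submodule.Quotient.mk _
    congr 1
    exact Subtype.ext (mulVec_mul_left f (monomial m.1 1) v.1)

@[simp] theorem matO_mk {q : ι → ℤ} {q' : κ → ℤ} (f : Matrix κ ι (MvPolynomial (Fin 6) ℂ))
    (hf : HgM q q' f) {a : ℤ} (v : ι → MvPolynomial (Fin 6) ℂ) (h : ∀ i, Hg (2 * a - q i) (v i)) :
    (matO W f hf).app ⟨a⟩ (FrO.mk W v h) = FrO.mk W (f.mulVec v) (hf.mulVec h) := rfl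

theorem matO_comp {q : ι → ℤ} {q' : κ → ℤ} {q'' : μ → ℤ}
    (f : Matrix κ ι (MvPolynomial (Fin 6) ℂ)) (hf : HgM q q' f)
    (g : Matrix μ κ (MvPolynomial (Fin 6) ℂ)) (hg : HgM q' q'' g) (hgf : HgM q q'' (g * f)) :
    matO W f hf ≫ matO W g hg = matO W (g * f) hgf := by
  ext a x
  obtain ⟨v, rfl⟩ := Submodule.Quotient.mk_surjective _ x
  change Submodule.Quotient.mk _ = Submodule.Quotient.mk _
  congr 1
  exact Subtype.ext (Matrix.mulVec_mulVec v.1 g f)

theorem HgM.mul {q : ι → ℤ} {q' : κ → ℤ} {q'' : μ → ℤ}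
    {f : Matrix κ ι (MvPolynomial (Fin 6) ℂ)} (hf : HgM q q' f)
    {g : Matrix μ κ (MvPolynomial (Fin 6) ℂ)} (hg : HgM q' q'' g) : HgM q q'' (g * f) :=
  fun i j => by
    rw [Matrix.mul_apply]
    exact hg_sum fun k => hg_mul (hg i k) (hf k j) (by ring)

/-- a matrix divisible by `W` acts as zero -/
theorem matO_eq_zero {q : ι → ℤ} {q' : κ → ℤ} (f : Matrix κ ι (MvPolynomial (Fin 6) ℂ))
    (hf : HgM q q' f) (h : ∀ i j, W ∣ f i j) : matO W f hf = 0 := by
  ext a x
  obtain ⟨v, rfl⟩ := Submodule.Quotient.mk_surjective _ x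
  change Submodule.Quotient.mk (frMat f hf a.deg v) = 0
  rw [Submodule.Quotient.mk_eq_zero]
  intro i
  exact Finset.dvd_sum fun j _ => Dvd.dvd.mul_right (h i j) _

end Free

/-! ## In the category of finitely generated graded `A`-modules -/

/-- the free modules are finitely generated and killed by `W` (proved for `W` homogeneous of degree
`3` in block B2) -/
class FrOK (W : MvPolynomial (Fin 6) ℂ) : Prop where
  mem : ∀ {ι : Type} [Fintype ι] (q : ι → ℤ), grA W (FrO W q)

section Cpx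

variable (W : MvPolynomial (Fin 6) ℂ) [FrOK W]

variable {ι κ μ : Type} [Fintype ι] [Fintype κ] [Fintype μ]

/-- free graded `A`-modules -/
noncomputable def FrA (q : ι → ℤ) : GA W := ⟨FrO W q, FrOK.mem q⟩

/-- the map of free graded `A`-modules attached to a matrix -/
noncomputable def matA {q : ι → ℤ} {q' : κ → ℤ} (f : Matrix κ ι (MvPolynomial (Fin 6) ℂ))
    (hf : HgM q q' f) : FrA W q ⟶ FrA W q' := ObjectProperty.homMk (matO W f hf)

theorem matA_comp {q : ι → ℤ} {q' : κ → ℤ} {q'' : μ → ℤ}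
    (f : Matrix κ ι (MvPolynomial (Fin 6) ℂ)) (hf : HgM q q' f)
    (g : Matrix μ κ (MvPolynomial (Fin 6) ℂ)) (hg : HgM q' q'' g) :
    matA W f hf ≫ matA W g hg = matA W (g * f) (hf.mul hg) := by
  apply ObjectProperty.hom_ext
  exact matO_comp W f hf g hg _

theorem matA_eq_zero {q : ι → ℤ} {q' : κ → ℤ} (f : Matrix κ ι (MvPolynomial (Fin 6) ℂ))
    (hf : HgM q q' f) (h : ∀ i j, W ∣ f i j) : matA W f hf = 0 := by
  apply ObjectProperty.hom_ext
  exact matO_eq_zero W f hf h

end Cpx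

/-! ## The complexes `T(E)`, `T_{≤ c}(E)`, `T_{> c}(E)` -/

section T

variable {W : MvPolynomial (Fin 6) ℂ} {n m : ℕ}

/-- delete the rows outside `P` and the columns outside `Q` -/
noncomputable def mask {ι κ : Type} (P : κ → Prop) (Q : ι → Prop) [DecidablePred P] [DecidablePred Q]
    (f : Matrix κ ι (MvPolynomial (Fin 6) ℂ)) : Matrix κ ι (MvPolynomial (Fin 6) ℂ) :=
  fun i j => if P i ∧ Q j then f i j else 0

/-- The generator `e_i` in position `k` of the `2`-periodic complex of `E` has (doubled) degree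
`E.p i - 3 k`; generators outside the selection `P` get the degree `1`, i.e. are dropped. -/
def qsel (E : GMF W n) (P : ℤ → Prop) [DecidablePred P] (k : ℤ) (i : Fin n) : ℤ :=
  if P (E.p i - 3 * k) then E.p i - 3 * k else 1

theorem hgM_mask (E : GMF W m) (F : GMF W n) (P : ℤ → Prop) [DecidablePred P] (k l r : ℤ)
    (f : Matrix (Fin n) (Fin m) (MvPolynomial (Fin 6) ℂ)) (hf : ∀ i j, Hg (r + E.p j - F.p i) (f i j))
    (hr : r = 3 * l - 3 * k) : HgM (qsel E P k) (qsel F P l)
      (mask (fun i => P (F.p i - 3 * l)) (fun j => P (E.p j - 3 * k)) f) := fun i j => by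
  unfold mask qsel
  split_ifs with h1 h2 h3 h4
  · have := hf i j
    rwa [show r + E.p j - F.p i = E.p j - 3 * k - (F.p i - 3 * l) by rw [hr]; ring] at this
  all_goals first | exact isWeightedHomogeneous_zero _ _ _ | (exfalso; tauto)

/-- the differential of the complex with the selection `P` -/
theorem hgM_d (E : GMF W n) (P : ℤ → Prop) [DecidablePred P] (k l : ℤ) (h : k + 1 = l) :
    HgM (qsel E P k) (qsel E P l)
      (mask (fun i => P (E.p i - 3 * l)) (fun j => P (E.p j - 3 * k)) E.d) :=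
  hgM_mask E E P k l 3 E.d E.deg (by rw [← h]; ring)

theorem hgM_f {E : GMF W m} {F : GMF W n} {f : Matrix (Fin n) (Fin m) (MvPolynomial (Fin 6) ℂ)}
    (hf : Cl E F f) (P : ℤ → Prop) [DecidablePred P] (k : ℤ) :
    HgM (qsel E P k) (qsel F P k)
      (mask (fun i => P (F.p i - 3 * k)) (fun j => P (E.p j - 3 * k)) f) :=
  hgM_mask E F P k k 0 f (fun i j => by rw [zero_add]; exact hf.1 i j) (by ring)

/-- A selection of degrees which is an initial or a final segment: products of matrices of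
nonnegative degree do not leave it and come back. -/
class Cvx (P : ℤ → Prop) : Prop where
  out : (∀ a b, a ≤ b → P b → P a) ∨ (∀ a b, a ≤ b → P a → P b)

instance (c : ℤ) : Cvx (· ≤ 2 * c) := ⟨Or.inl fun _ _ h h' => h.trans h'⟩
instance (c : ℤ) : Cvx (2 * c < ·) := ⟨Or.inr fun _ _ h h' => h'.trans_le h⟩
instance : Cvx (fun _ => True) := ⟨Or.inl fun _ _ _ _ => trivial⟩

theorem hg_neg {a : ℤ} {f : MvPolynomial (Fin 6) ℂ} (hf : Hg a f) (ha : a < 0) : f = 0 := by
  ext s
  rw [coeff_zero]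
  by_contra h
  have h1 := hf h
  have h2 : (0 : ℤ) ≤ Finsupp.weight (fun _ : Fin 6 => (2 : ℤ)) s := by
    rw [Finsupp.weight_apply, Finsupp.sum]
    exact Finset.sum_nonneg fun i _ => by rw [nsmul_eq_mul]; positivity
  omega

/-- product of masked matrices of degrees `3 (l - k)`, `3 (r - l)` -/
theorem mask_mul {ν : ℕ} (E : GMF W m) (F : GMF W n) (G : GMF W ν) (P : ℤ → Prop) [DecidablePred P]
    [Cvx P] (k l r : ℤ) (f : Matrix (Fin n) (Fin m) (MvPolynomial (Fin 6) ℂ))
    (g : Matrix (Fin ν) (Fin n) (MvPolynomial (Fin 6) ℂ))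
    (hf : ∀ i j, Hg (3 * l - 3 * k + E.p j - F.p i) (f i j))
    (hg : ∀ i j, Hg (3 * r - 3 * l + F.p j - G.p i) (g i j)) :
    mask (fun i => P (G.p i - 3 * r)) (fun j => P (F.p j - 3 * l)) g *
      mask (fun i => P (F.p i - 3 * l)) (fun j => P (E.p j - 3 * k)) f =
    mask (fun i => P (G.p i - 3 * r)) (fun j => P (E.p j - 3 * k)) (g * f) := by
  ext1 i j
  rw [Matrix.mul_apply]
  unfold mask
  split_ifs with h
  · rw [Matrix.mul_apply]
    refine Finset.sum_congr rfl fun t _ => ?_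
    by_cases ht : P (F.p t - 3 * l)
    · rw [if_pos ⟨h.1, ht⟩, if_pos ⟨ht, h.2⟩]
    · rw [if_neg (fun h' => ht h'.2), if_neg (fun h' => ht h'.1), zero_mul]
      rcases Cvx.out (P := P) with h1 | h1
      · have h2 : E.p j - 3 * k < F.p t - 3 * l := by
          by_contra h3
          exact ht (h1 _ _ (not_lt.1 h3) h.2)
        rw [hg_neg (hf t j) (by linarith), mul_zero]
      · have h2 : F.p t - 3 * l < G.p i - 3 * r := by
          by_contra h3
          exact ht (h1 _ _ (not_lt.1 h3) h.1)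
        rw [hg_neg (hg i t) (by linarith), zero_mul]
  · refine Finset.sum_eq_zero fun t _ => ?_
    by_cases hi : P (G.p i - 3 * r)
    · have hj : ¬ P (E.p j - 3 * k) := fun h' => h ⟨hi, h'⟩
      exact mul_eq_zero_of_right _ (if_neg fun h' => hj h'.2)
    · exact mul_eq_zero_of_left (if_neg fun h' => hi h'.1) _

variable [FrOK W]

/-- the terms of the complex of free graded `A`-modules attached to `E` and the selection `P` -/
noncomputable def TX (E : GMF W n) (P : ℤ → Prop) [DecidablePred P] (k : ℤ) : GA W :=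
  FrA W (qsel E P k)

/-- the differentials -/
noncomputable def Td (E : GMF W n) (P : ℤ → Prop) [DecidablePred P] (k l : ℤ) (h : k + 1 = l) :
    TX E P k ⟶ TX E P l :=
  matA W _ (hgM_d E P k l h)

theorem Td_Td (E : GMF W n) (P : ℤ → Prop) [DecidablePred P] [Cvx P] (k l r : ℤ) (h : k + 1 = l)
    (h' : l + 1 = r) : Td E P k l h ≫ Td E P l r h' = 0 := by
  unfold Td
  refine (matA_comp W _ _ _ _).trans (matA_eq_zero W _ _ fun i j => ?_)
  rw [mask_mul E E E P k l r E.d E.d
    (fun i j => by have := E.deg i j; rwa [show 3 * l - 3 * k + E.p j - E.p i =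
      3 + E.p j - E.p i by rw [← h]; ring])
    (fun i j => by have := E.deg i j; rwa [show 3 * r - 3 * l + E.p j - E.p i =
      3 + E.p j - E.p i by rw [← h']; ring]), E.sq]
  unfold mask
  split_ifs
  · rw [Matrix.smul_apply, smul_eq_mul]
    exact dvd_mul_right _ _
  · exact dvd_zero _

/-- The complex of free graded `A`-modules attached to the graded matrix factorization `E` and the
selection `P` of degrees of generators: `T(E)` for `P = True`, `T_{≤ c}(E)` for `P = (· ≤ 2c)`,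
`T_{> c}(E)` for `P = (2c < ·)`. -/
noncomputable def T (E : GMF W n) (P : ℤ → Prop) [DecidablePred P] [Cvx P] :
    CochainComplex (GA W) ℤ where
  X := TX E P
  d k l := if h : k + 1 = l then Td E P k l h else 0
  shape k l h := dif_neg h
  d_comp_d' k l r h h' := by
    rw [dif_pos (show k + 1 = l from h), dif_pos (show l + 1 = r from h'), Td_Td]

theorem T_d (E : GMF W n) (P : ℤ → Prop) [DecidablePred P] [Cvx P] (k l : ℤ) (h : k + 1 = l) :
    (T E P).d k l = Td E P k l h := dif_pos h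

/-- the map of complexes attached to a closed map -/
noncomputable def Tf {E : GMF W m} {F : GMF W n} {f : Matrix (Fin n) (Fin m) (MvPolynomial (Fin 6) ℂ)}
    (hf : Cl E F f) (P : ℤ → Prop) [DecidablePred P] [Cvx P] : T E P ⟶ T F P where
  f k := (matA W _ (hgM_f hf P k) : TX E P k ⟶ TX F P k)
  comm' k l h := by
    have h1 : k + 1 = l := h
    rw [T_d _ _ _ _ h1, T_d _ _ _ _ h1]
    unfold Td
    refine (matA_comp W _ _ _ _).trans (Eq.trans ?_ (matA_comp W _ _ _ _).symm)
    congr 1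
    rw [mask_mul E F F P k k l f F.d
      (fun i j => by have := hf.1 i j; rwa [show 3 * k - 3 * k + E.p j - F.p i =
        E.p j - F.p i by ring])
      (fun i j => by have := F.deg i j; rwa [show 3 * l - 3 * k + F.p j - F.p i =
        3 + F.p j - F.p i by rw [← h1]; ring]),
      mask_mul E E F P k l l E.d f
      (fun i j => by have := E.deg i j; rwa [show 3 * l - 3 * k + E.p j - E.p i =
        3 + E.p j - E.p i by rw [← h1]; ring])
      (fun i j => by have := hf.1 i j; rwa [show 3 * l - 3 * l + E.p j - F.p i =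
        E.p j - F.p i by ring]), hf.2]

/-- `T_{≤ c}(E)` -/
noncomputable abbrev TL (E : GMF W n) (c : ℤ) : CochainComplex (GA W) ℤ := T E (· ≤ 2 * c)

/-- `T_{> c}(E)` -/
noncomputable abbrev TG (E : GMF W n) (c : ℤ) : CochainComplex (GA W) ℤ := T E (2 * c < ·)

/-- `T(E)` -/
noncomputable abbrev TT (E : GMF W n) : CochainComplex (GA W) ℤ := T E (fun _ => True)

variable [(grA W).ContainsZero] [(grA W).IsClosedUnderKernels] [(grA W).IsClosedUnderCokernels]
  [(grA W).IsClosedUnderFiniteProducts] [(tors W).IsSerreClass]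

variable (W) in
/-- the exact functor from complexes of graded modules to the derived category of `Coh X` -/
noncomputable def QPi : CochainComplex (GA W) ℤ ⥤ DerivedCategory (Coh W) :=
  (piA W).mapHomologicalComplex (ComplexShape.up ℤ) ⋙ DerivedCategory.Q

/-- Orlov's functor on objects, with values in the (unbounded) derived category -/
noncomputable def FD (E : GMF W n) : DerivedCategory (Coh W) := (QPi W).obj (TL E 0)

/-- Orlov's functor on closed maps -/
noncomputable def FDmap {E : GMF W m} {F : GMF W n}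
    {f : Matrix (Fin n) (Fin m) (MvPolynomial (Fin 6) ℂ)} (hf : Cl E F f) : FD E ⟶ FD F :=
  (QPi W).map (Tf hf (· ≤ 2 * 0))

end T

/-! ## The sheaves `𝒪(n)`, the skyscraper sheaves, the evaluation triangle -/

section Sheaves

/-- multiplication by the value of a monomial at `x` -/
noncomputable def skMap (x : Fin 6 → ℂ) {a b : ℤ} (m : Fin 6 →₀ ℕ) (h : a + (m.degree : ℤ) = b) :
    ((if 0 ≤ a then ⊤ else ⊥ : Submodule ℂ ℂ)) →ₗ[ℂ] ((if 0 ≤ b then ⊤ else ⊥ : Submodule ℂ ℂ)) where
  toFun v := ⟨eval x (monomial m 1) * v.1, by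
    by_cases ha : 0 ≤ a
    · rw [if_pos (by rw [← h]; positivity)]
      trivial
    · obtain ⟨v, hv⟩ := v
      rw [if_neg ha, Submodule.mem_bot] at hv
      subst hv
      rw [mul_zero]
      exact Submodule.zero_mem _⟩
  map_add' u v := Subtype.ext (mul_add _ _ _)
  map_smul' c v := Subtype.ext (mul_left_comm _ _ _)

/-- The homogeneous coordinate ring `⊕_{a ≥ 0} ℂ` of the point `x` of `ℙ⁵`, as a graded
`ℂ[x₀,…,x₅]`-module: `x_i` acts as the `i`-th coordinate of `x`. -/
noncomputable def SkO (x : Fin 6 → ℂ) : GrS where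
  obj a := ModuleCat.of ℂ ((if 0 ≤ a.deg then ⊤ else ⊥ : Submodule ℂ ℂ))
  map m := ModuleCat.ofHom (skMap x m.1 m.2)
  map_id a := by
    ext v
    change eval x (monomial 0 1) * v.1 = v.1
    rw [← C_apply, eval_C, one_mul]
  map_comp m m' := by
    ext v
    change eval x (monomial (m.1 + m'.1) 1) * v.1 =
      eval x (monomial m'.1 1) * (eval x (monomial m.1 1) * v.1)
    rw [← mul_assoc, ← map_mul, monomial_mul, one_mul, add_comm]

variable (W : MvPolynomial (Fin 6) ℂ) [(grA W).ContainsZero] [(grA W).IsClosedUnderKernels]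
  [(grA W).IsClosedUnderCokernels] [(grA W).IsClosedUnderFiniteProducts] [(tors W).IsSerreClass]

/-- `E` is isomorphic to the structure sheaf of a closed point of `X = {W = 0} ⊂ ℙ⁵` -/
def IsSky (E : DerivedCategory (Coh W)) : Prop :=
  ∃ (x : Fin 6 → ℂ) (M : GA W), x ≠ 0 ∧ eval x W = 0 ∧ Nonempty (M.obj ≅ SkO x) ∧
    Nonempty (E ≅ (DerivedCategory.singleFunctor (Coh W) 0).obj ((piA W).obj M))

/-- the line bundle `𝒪(n)` as an object of the derived category -/
noncomputable def OD [FrOK W] (n : ℤ) : DerivedCategory (Coh W) :=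
  (DerivedCategory.singleFunctor (Coh W) 0).obj ((piA W).obj (FrA W (fun _ : Fin 1 => -2 * n)))

end Sheaves

section Ev

open Pretriangulated

universe v u

/-- `Y` is the cone of the evaluation `RHom(O, E) ⊗ O → E`: there are bases `e m` of all the spaces
`Hom(O[-m], E)` (zero for almost all `m`) and a distinguished triangle
`⊕_{m, i} O[-m] → E → Y →` whose first map has the components `e m i`. -/
def IsEvCone {𝒟 : Type u} [Category.{v} 𝒟] [Preadditive 𝒟] [Linear ℂ 𝒟] [HasZeroObject 𝒟]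
    [HasShift 𝒟 ℤ] [∀ n : ℤ, (shiftFunctor 𝒟 n).Additive] [Pretriangulated 𝒟]
    [HasFiniteBiproducts 𝒟] (O E Y : 𝒟) : Prop :=
  ∃ (r : ℤ → ℕ) (s : Finset ℤ) (_ : ∀ m, m ∉ s → r m = 0)
    (e : ∀ m, Module.Basis (Fin (r m)) ℂ (O⟦-m⟧ ⟶ E)) (f : E ⟶ Y)
    (g : Y ⟶ (⨁ fun i : (Σ m : s, Fin (r m)) => O⟦-(i.1 : ℤ)⟧)⟦(1 : ℤ)⟧),
    Triangle.mk (biproduct.desc fun i : (Σ m : s, Fin (r m)) => e i.1 i.2) f g ∈ distTriang 𝒟

end Ev

end Vale.Agent.P287Z.O.L
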