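import Vale.Agent.P287Z.O.L.Defs

/-!
# The action of polynomials on graded modules (P287 port of P294-L)
-/

open CategoryTheory Limits MvPolynomial

namespace Vale.Agent.P287Z.O.L

/-- the action of a monomial -/
noncomputable def mon (M : GrS) (m : Fin 6 →₀ ℕ) (a b : ℤ) : M.obj ⟨a⟩ ⟶ M.obj ⟨b⟩ :=
  if h : a + (m.degree : ℤ) = b then M.map (⟨m, h⟩ : (⟨a⟩ : Dg) ⟶ ⟨b⟩) else 0

theorem mon_of_eq (M : GrS) (m : Fin 6 →₀ ℕ) {a b : ℤ} (h : a + (m.degree : ℤ) = b) :
    mon M m a b = M.map (⟨m, h⟩ : (⟨a⟩ : Dg) ⟶ ⟨b⟩) := dif_pos h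

theorem mon_of_ne (M : GrS) (m : Fin 6 →₀ ℕ) {a b : ℤ} (h : a + (m.degree : ℤ) ≠ b) :
    mon M m a b = 0 := dif_neg h

theorem mon_zero (M : GrS) (a : ℤ) : mon M 0 a a = 𝟙 _ := by
  rw [mon_of_eq M 0 (by simp)]
  exact M.map_id _

theorem mon_add (M : GrS) (m m' : Fin 6 →₀ ℕ) {a b : ℤ} (h : a + (m.degree : ℤ) = b) (c : ℤ) :
    mon M (m + m') a c = mon M m a b ≫ mon M m' b c := by
  by_cases h' : b + (m'.degree : ℤ) = c
  · rw [mon_of_eq M m h, mon_of_eq M m' h', ← M.map_comp, mon_of_eq M (m + m') (by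
      rw [map_add, Nat.cast_add, ← h', ← h, add_assoc])]
    rfl
  · rw [mon_of_ne M m' h', mon_of_ne, comp_zero]
    intro h''
    exact h' (by rw [← h'', ← h, map_add, Nat.cast_add, add_assoc])

theorem mon_natural {M N : GrS} (φ : M ⟶ N) (m : Fin 6 →₀ ℕ) (a b : ℤ) :
    mon M m a b ≫ φ.app ⟨b⟩ = φ.app ⟨a⟩ ≫ mon N m a b := by
  by_cases h : a + (m.degree : ℤ) = b
  · rw [mon_of_eq M m h, mon_of_eq N m h, φ.naturality]
  · rw [mon_of_ne M m h, mon_of_ne N m h, zero_comp, comp_zero]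

theorem act_eq (M : GrS) (f : MvPolynomial (Fin 6) ℂ) (a b : ℤ) :
    act M f a b = ∑ m ∈ f.support, f.coeff m • mon M m a b := by
  rw [act]
  refine Finset.sum_congr rfl fun m _ => ?_
  by_cases h : a + (m.degree : ℤ) = b
  · rw [dif_pos h, mon_of_eq M m h]
  · rw [dif_neg h, mon_of_ne M m h, smul_zero]

theorem act_eq_of_subset (M : GrS) (f : MvPolynomial (Fin 6) ℂ) (a b : ℤ)
    {s : Finset (Fin 6 →₀ ℕ)} (hs : f.support ⊆ s) :
    act M f a b = ∑ m ∈ s, f.coeff m • mon M m a b := by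
  rw [act_eq]
  refine Finset.sum_subset hs fun m _ hm => ?_
  rw [MvPolynomial.notMem_support_iff.1 hm, zero_smul]

theorem act_add (M : GrS) (f g : MvPolynomial (Fin 6) ℂ) (a b : ℤ) :
    act M (f + g) a b = act M f a b + act M g a b := by
  classical
  have h1 : (f + g).support ⊆ f.support ∪ g.support := MvPolynomial.support_add
  rw [act_eq_of_subset M (f + g) a b h1,
    act_eq_of_subset M f a b (Finset.subset_union_left (s₂ := g.support)),
    act_eq_of_subset M g a b (Finset.subset_union_right (s₁ := f.support)),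
    ← Finset.sum_add_distrib]
  refine Finset.sum_congr rfl fun m _ => ?_
  rw [coeff_add, add_smul]

theorem act_smul (M : GrS) (c : ℂ) (f : MvPolynomial (Fin 6) ℂ) (a b : ℤ) :
    act M (c • f) a b = c • act M f a b := by
  have h1 : (c • f).support ⊆ f.support := MvPolynomial.support_smul
  rw [act_eq_of_subset M (c • f) a b h1, act_eq, Finset.smul_sum]
  refine Finset.sum_congr rfl fun m _ => ?_
  rw [coeff_smul, smul_eq_mul, mul_smul]

/-- the action as a linear map -/
noncomputable def actL (M : GrS) (a b : ℤ) :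
    MvPolynomial (Fin 6) ℂ →ₗ[ℂ] (M.obj ⟨a⟩ ⟶ M.obj ⟨b⟩) where
  toFun f := act M f a b
  map_add' f g := act_add M f g a b
  map_smul' c f := act_smul M c f a b

@[simp] theorem actL_apply (M : GrS) (a b : ℤ) (f) : actL M a b f = act M f a b := rfl

@[simp] theorem act_zero (M : GrS) (a b : ℤ) : act M 0 a b = 0 := (actL M a b).map_zero

theorem act_neg (M : GrS) (f : MvPolynomial (Fin 6) ℂ) (a b : ℤ) :
    act M (-f) a b = - act M f a b := (actL M a b).map_neg f

theorem act_sub (M : GrS) (f g : MvPolynomial (Fin 6) ℂ) (a b : ℤ) :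
    act M (f - g) a b = act M f a b - act M g a b := (actL M a b).map_sub f g

theorem act_sum (M : GrS) {ι : Type*} (s : Finset ι) (f : ι → MvPolynomial (Fin 6) ℂ) (a b : ℤ) :
    act M (∑ i ∈ s, f i) a b = ∑ i ∈ s, act M (f i) a b := map_sum (actL M a b) f s

theorem act_monomial (M : GrS) (m : Fin 6 →₀ ℕ) (c : ℂ) (a b : ℤ) :
    act M (monomial m c) a b = c • mon M m a b := by
  classical
  rw [act_eq_of_subset M _ a b MvPolynomial.support_monomial_subset, Finset.sum_singleton,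
    coeff_monomial, if_pos rfl]

theorem act_one (M : GrS) (a : ℤ) : act M 1 a a = 𝟙 _ := by
  have : (1 : MvPolynomial (Fin 6) ℂ) = monomial 0 1 := rfl
  rw [this, act_monomial, one_smul, mon_zero]

theorem act_natural {M N : GrS} (φ : M ⟶ N) (f : MvPolynomial (Fin 6) ℂ) (a b : ℤ) :
    act M f a b ≫ φ.app ⟨b⟩ = φ.app ⟨a⟩ ≫ act N f a b := by
  rw [act_eq, act_eq, Preadditive.sum_comp, Preadditive.comp_sum]
  refine Finset.sum_congr rfl fun m _ => ?_
  rw [Linear.smul_comp, Linear.comp_smul, mon_natural]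

/-- homogeneous elements, in terms of monomials -/
theorem hg_iff {n : ℤ} {f : MvPolynomial (Fin 6) ℂ} :
    V.Hg n f ↔ ∀ m ∈ f.support, 2 * (m.degree : ℤ) = n := by
  have key : ∀ m : Fin 6 →₀ ℕ,
      Finsupp.weight (fun _ : Fin 6 => (2 : ℤ)) m = 2 * (m.degree : ℤ) := by
    intro m
    rw [Finsupp.weight_apply, Finsupp.sum, Finsupp.degree_apply]
    push_cast
    rw [Finset.mul_sum]
    refine Finset.sum_congr rfl fun i _ => ?_
    simp [mul_comm]
  constructor
  · intro h m hm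
    rw [← key]
    exact h (mem_support_iff.1 hm)
  · intro h m hm
    rw [key]
    exact h m (mem_support_iff.2 hm)

theorem hga_monomial {m : Fin 6 →₀ ℕ} (c : ℂ) {n : ℤ} (h : 2 * (m.degree : ℤ) = n) :
    V.Hg n (monomial m c : MvPolynomial (Fin 6) ℂ) := by
  rw [hg_iff]
  intro m' hm'
  have := MvPolynomial.support_monomial_subset hm'
  rw [Finset.mem_singleton] at this
  rw [this, h]

theorem act_monomial_mul (M : GrS) (m : Fin 6 →₀ ℕ) (t : ℂ) (g : MvPolynomial (Fin 6) ℂ)
    {a b : ℤ} (h : a + (m.degree : ℤ) = b) (c : ℤ) :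
    act M (monomial m t * g) a c = t • (mon M m a b ≫ act M g b c) := by
  conv_lhs => rw [← MvPolynomial.support_sum_monomial_coeff g]
  rw [Finset.mul_sum, act_sum, act_eq M g, Preadditive.comp_sum, Finset.smul_sum]
  refine Finset.sum_congr rfl fun m' _ => ?_
  rw [monomial_mul, act_monomial, mon_add M m m' h, Linear.comp_smul, smul_smul]

/-- the action of a product -/
theorem act_mul (M : GrS) {f : MvPolynomial (Fin 6) ℂ} (g : MvPolynomial (Fin 6) ℂ) {a b : ℤ}
    (hf : V.Hg (2 * (b - a)) f) (c : ℤ) :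
    act M (f * g) a c = act M f a b ≫ act M g b c := by
  conv_lhs => rw [← MvPolynomial.support_sum_monomial_coeff f]
  rw [Finset.sum_mul, act_sum, act_eq M f, Preadditive.sum_comp]
  refine Finset.sum_congr rfl fun m hm => ?_
  rw [act_monomial_mul M m _ g (b := b) (by have := (hg_iff.1 hf) m hm; lia), Linear.smul_comp]

/-- degree mismatch -/
theorem act_eq_zero_of_hg (M : GrS) {f : MvPolynomial (Fin 6) ℂ} {n : ℤ} (hf : V.Hg n f)
    {a b : ℤ} (h : 2 * (b - a) ≠ n) : act M f a b = 0 := by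
  rw [act_eq]
  refine Finset.sum_eq_zero fun m hm => ?_
  rw [mon_of_ne M m (fun h' => h (by rw [← (hg_iff.1 hf) m hm, ← h']; ring)), smul_zero]

theorem act_mul' (M : GrS) {f g : MvPolynomial (Fin 6) ℂ} {a b c : ℤ}
    (hg : V.Hg (2 * (c - b)) g) :
    act M (f * g) a c = act M f a b ≫ act M g b c := by
  conv_lhs => rw [← MvPolynomial.support_sum_monomial_coeff f]
  rw [Finset.sum_mul, act_sum, act_eq M f, Preadditive.sum_comp]
  refine Finset.sum_congr rfl fun m hm => ?_
  rw [Linear.smul_comp]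
  by_cases h : a + (m.degree : ℤ) = b
  · rw [act_monomial_mul M m _ g h]
  · rw [mon_of_ne M m h, zero_comp, smul_zero,
      act_monomial_mul M m _ g (b := a + m.degree) rfl, act_eq_zero_of_hg M hg (by lia), comp_zero,
      smul_zero]

variable {W : MvPolynomial (Fin 6) ℂ}

theorem killed_act_mul {M : GrS} (hM : killed W M) {n : ℤ} (hW : V.Hg n W)
    (g : MvPolynomial (Fin 6) ℂ) (a b : ℤ) : act M (W * g) a b = 0 := by
  by_cases h : W = 0
  · rw [h, zero_mul, act_zero]
  · obtain ⟨m, hm⟩ := MvPolynomial.support_nonempty.2 h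
    have h2 := (hg_iff.1 hW) m hm
    rw [act_mul M g (b := a + m.degree) (by rw [← h2] at hW; convert hW using 1; ring), hM,
      zero_comp]

end Vale.Agent.P287Z.O.L
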