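import Mathlib.Algebra.Category.ModuleCat.Abelian
import Mathlib.Algebra.Homology.DerivedCategory.Ext.Linear
import Mathlib.Algebra.Homology.DerivedCategory.ExactFunctor
import Mathlib.Algebra.Homology.DerivedCategory.Linear
import Mathlib.Algebra.Homology.DerivedCategory.TStructure
import Mathlib.CategoryTheory.Abelian.SerreClass.Localization
import Mathlib.CategoryTheory.Abelian.Subcategory
import Mathlib.CategoryTheory.Abelian.FunctorCategory
import Mathlib.CategoryTheory.Linear.FunctorCategory
import Mathlib.CategoryTheory.Localization.Linear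
import Mathlib.CategoryTheory.Triangulated.TStructure.Induced
import Vale.Agent.P287Z.O.Sta2
import Vale.Agent.P287Z.Gr.Defs

open CategoryTheory Limits MvPolynomial

namespace Vale.Agent.P287Z.O.L

/-- The index category of graded modules: objects are the integers (degrees), a morphism `a → b` is a
monomial of degree `b - a`. -/
abbrev Dg : Type := Gr.Dg 6

/-- graded `ℂ[x₀,…,x₅]`-modules -/
abbrev GrS : Type 1 := Dg ⥤ ModuleCat.{0} ℂ

variable (W : MvPolynomial (Fin 6) ℂ)

/-- the action of the part of degree `b - a` of the polynomial `f` on the part of degree `a` -/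
noncomputable def act (M : GrS) (f : MvPolynomial (Fin 6) ℂ) (a b : ℤ) :
    M.obj ⟨a⟩ ⟶ M.obj ⟨b⟩ :=
  ∑ m ∈ f.support, if h : a + (m.degree : ℤ) = b then
    f.coeff m • M.map (⟨m, h⟩ : (⟨a⟩ : Dg) ⟶ ⟨b⟩) else 0

/-- the modules killed by `W` -/
def killed : ObjectProperty GrS := fun M => ∀ a b, act M W a b = 0

/-- finitely generated graded modules -/
def fg : ObjectProperty GrS := fun M => ∃ (n : ℕ) (a : Fin n → ℤ) (g : ∀ i, M.obj ⟨a i⟩),
  ∀ (b : ℤ) (v : M.obj ⟨b⟩), v ∈ Submodule.span ℂ
    {w | ∃ (i : Fin n) (m : (⟨a i⟩ : Dg) ⟶ ⟨b⟩), M.map m (g i) = w}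

/-- finitely generated graded modules over `A = ℂ[x₀,…,x₅]/(W)` -/
def grA : ObjectProperty GrS := killed W ⊓ fg

abbrev GA : Type 1 := (grA W).FullSubcategory

variable [(grA W).ContainsZero] [(grA W).IsClosedUnderKernels] [(grA W).IsClosedUnderCokernels]
  [(grA W).IsClosedUnderFiniteProducts]

/-- torsion modules: zero in large degrees -/
def tors : ObjectProperty (GA W) := fun M => ∃ N : ℤ, ∀ a ≥ N, Subsingleton (M.obj.obj ⟨a⟩)

variable [(tors W).IsSerreClass]

/-- coherent sheaves on `X = {W = 0} ⊂ ℙ⁵` (Serre) -/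
abbrev Coh : Type 1 := (tors W).isoModSerre.Localization

noncomputable abbrev piA : GA W ⥤ Coh W := (tors W).isoModSerre.Q

noncomputable instance cohAbelian : Abelian (Coh W) :=
  ObjectProperty.SerreClassLocalization.abelian (piA W) (tors W)

noncomputable instance cohHasDerivedCategory : HasDerivedCategory.{1} (Coh W) :=
  HasDerivedCategory.standard (Coh W)

/-- the bounded derived category `D^b(Coh X)` -/
abbrev DbX : Type 1 :=
  (DerivedCategory.TStructure.t (C := Coh W)).bounded.FullSubcategory


end Vale.Agent.P287Z.O.L
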