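import Vale.Agent.P287Z.O.L.B1b
import Vale.Agent.P287Z.O.L.B2
import Vale.Agent.P287Z.O.L.TwT
import Vale.Agent.P287Z.O.H335.Kos4
import Vale.Agent.P287Z.O.H408.Fr

/-!
# The Koszul complex of `x₀, …, x₅` in `Coh X`
-/

set_option autoImplicit false

open CategoryTheory Limits MvPolynomial

namespace Vale.Agent.P287Z.O.L

open V

section asymptotic

variable (W : MvPolynomial (Fin 6) ℂ)

/-- the part of degree `a` -/
noncomputable def evA (a : ℤ) : GA W ⥤ ModuleCat.{0} ℂ :=
  (grA W).ι ⋙ (evaluation Dg (ModuleCat.{0} ℂ)).obj ⟨a⟩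

instance (a : ℤ) : (evA W a).Additive := by unfold evA; infer_instance
instance (a : ℤ) : PreservesFiniteLimits (evA W a) := comp_preservesFiniteLimits _ _
instance (a : ℤ) : PreservesFiniteColimits (evA W a) := comp_preservesFiniteColimits _ _

variable {W}

/-- a complex of graded modules which is exact in large degrees is exact in `Coh X` -/
lemma pi_exact (S : ShortComplex (GA W)) (N : ℤ) (h : ∀ a ≥ N, ∀ v : S.X₂.obj.obj ⟨a⟩,
    S.g.hom.app ⟨a⟩ v = 0 → ∃ u : S.X₁.obj.obj ⟨a⟩, S.f.hom.app ⟨a⟩ u = v) :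
    (S.map (piA W)).Exact := by
  rw [ShortComplex.exact_iff_isZero_homology]
  refine IsZero.of_iso ?_ (S.mapHomologyIso (piA W))
  rw [ObjectProperty.SerreClassLocalization.isZero_obj_iff (piA W) (tors W)]
  refine ⟨N, fun a ha => ?_⟩
  have h1 : (S.map (evA W a)).Exact := (ShortComplex.moduleCat_exact_iff _).2 (h a ha)
  rw [ShortComplex.exact_iff_isZero_homology] at h1
  exact ModuleCat.subsingleton_of_isZero (h1.of_iso (S.mapHomologyIso (evA W a)).symm)

/-- a map of graded modules which is surjective in large degrees is an epimorphism in `Coh X` -/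
lemma pi_epi {M M' : GA W} (f : M ⟶ M') (N : ℤ) (h : ∀ a ≥ N, Function.Surjective (f.hom.app ⟨a⟩)) :
    Epi ((piA W).map f) := by
  have h1 := pi_exact (ShortComplex.mk f (0 : M' ⟶ M') comp_zero) N fun a ha v _ => h a ha v
  refine (ShortComplex.exact_iff_epi _ ?_).1 h1
  change (piA W).map 0 = 0
  exact Functor.map_zero _ _ _

end asymptotic

section koszul

open H335 in
/-- the matrix of the Koszul differential from the part `|I| = m + 1` to the part `|J| = m` -/
noncomputable def kmat (m : ℕ) : Matrix (Finset (Fin 6)) (Finset (Fin 6)) (MvPolynomial (Fin 6) ℂ) :=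
  fun J I => if J.card = m then ∑ i ∈ Jᶜ, if I = insert i J then sg i J • (X i) else 0 else 0

/-- the (doubled) degrees of the generators of the `m`-th term, twisted by `c` -/
def kq (c : ℤ) (m : ℕ) : Finset (Fin 6) → ℤ := fun I => if I.card = m then 2 * m - 2 * c else 1

open H335 in
theorem kmat_mulVec (m : ℕ) (f : Finset (Fin 6) → MvPolynomial (Fin 6) ℂ) (J : Finset (Fin 6)) :
    (kmat m).mulVec f J = if J.card = m then io (mu (xs (Fin 6))) f J else 0 := by
  change ∑ I, kmat m J I * f I = _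
  unfold kmat
  split_ifs with h
  · simp only [Finset.sum_mul]
    rw [Finset.sum_comm]
    refine Finset.sum_congr rfl fun i _ => ?_
    rw [Finset.sum_eq_single (insert i J)]
    · rw [if_pos rfl, mu_apply, smul_mul_assoc]
    · intro I _ hI
      rw [if_neg hI, zero_mul]
    · simp
  · simp

theorem kmat_hgM (c : ℤ) (m : ℕ) : HgM (kq c (m + 1)) (kq c m) (kmat m) := by
  intro J I
  unfold kmat
  split_ifs with h
  · refine Submodule.sum_mem (weightedHomogeneousSubmodule ℂ _ _) fun i hi => ?_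
    have hi' : i ∉ J := by simpa using hi
    split_ifs with h1
    · subst h1
      unfold kq
      rw [if_pos h, if_pos (by rw [Finset.card_insert_of_notMem hi', h])]
      refine (weightedHomogeneousSubmodule ℂ _ _).toAddSubgroup.zsmul_mem ?_ _
      rw [show 2 * ((m + 1 : ℕ) : ℤ) - 2 * c - (2 * (m : ℤ) - 2 * c) = 2 by push_cast; ring]
      exact isWeightedHomogeneous_X _ _ _
    · exact Submodule.zero_mem _
  · exact isWeightedHomogeneous_zero _ _ _

theorem weight_two (s : Fin 6 →₀ ℕ) : Finsupp.weight (fun _ : Fin 6 => (2 : ℤ)) s =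
    2 * Finsupp.weight (fun _ : Fin 6 => (1 : ℤ)) s := by
  rw [Finsupp.weight_apply, Finsupp.weight_apply, Finsupp.sum, Finsupp.sum, Finset.mul_sum]
  refine Finset.sum_congr rfl fun i _ => ?_
  rw [nsmul_eq_mul, nsmul_eq_mul]
  ring

theorem hg_iff_hz {k : ℤ} {f : MvPolynomial (Fin 6) ℂ} : Hg (2 * k) f ↔ H335.Hz k f := by
  constructor
  · intro h s hs
    have := h hs
    rw [weight_two] at this
    linarith
  · intro h s hs
    have := h hs
    rw [weight_two, this]

open H335 in
theorem kmat_sq (m : ℕ) : kmat m * kmat (m + 1) = 0 := by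
  ext1 J I
  have h1 : (kmat m * kmat (m + 1)) J I = (kmat m).mulVec ((kmat (m + 1)).mulVec (Pi.single I 1)) J := by
    rw [Matrix.mulVec_mulVec, Matrix.mulVec_single_one]
    rfl
  rw [h1, kmat_mulVec, Matrix.zero_apply]
  split_ifs with hJ
  · have h2 : io (mu (xs (Fin 6))) ((kmat (m + 1)).mulVec (Pi.single I 1)) J =
        io (mu (xs (Fin 6))) (fun J => io (mu (xs (Fin 6))) (Pi.single I 1) J) J := by
      unfold io
      refine Finset.sum_congr rfl fun i hi => ?_
      have hi' : i ∉ J := by simpa using hi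
      rw [kmat_mulVec, if_pos (by rw [Finset.card_insert_of_notMem hi', hJ])]
      rfl
    rw [h2]
    exact io_io _ (mu_comm _ _) _ J
  · rfl

variable (W : MvPolynomial (Fin 6) ℂ) [FrOK W]

/-- the `m`-th term `⋀^m ℂ⁵ ⊗ A(c - m)` of the twisted Koszul complex -/
noncomputable def KX (c : ℤ) (m : ℕ) : GA W := FrA W (kq c m)

/-- the Koszul differential -/
noncomputable def Kd (c : ℤ) (m : ℕ) : KX W c (m + 1) ⟶ KX W c m := matA W (kmat m) (kmat_hgM c m)

theorem Kd_Kd (c : ℤ) (m : ℕ) : Kd W c (m + 1) ≫ Kd W c m = 0 := by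
  unfold Kd
  refine (matA_comp W _ _ _ _).trans (matA_eq_zero W _ _ fun i j => ?_)
  rw [kmat_sq]
  exact dvd_zero _

variable {W}

omit [FrOK W] in
open H335 in
/-- exactness in one degree -/
theorem Kd_exact_at (hW : Hg 6 W) (hW0 : W ≠ 0) (c : ℤ) (m : ℕ) (a : ℤ) (h0 : a + c ≠ 0)
    (h5 : a + c ≠ 3) (v : Finset (Fin 6) → MvPolynomial (Fin 6) ℂ)
    (hv : ∀ I, Hg (2 * a - kq c m I) (v I)) (hd : ∀ J, W ∣ io (mu (xs (Fin 6))) v J) :
    ∃ g : Finset (Fin 6) → MvPolynomial (Fin 6) ℂ, (∀ I, Hg (2 * a - kq c (m + 1) I) (g I)) ∧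
      ∀ J, W ∣ v J - (kmat m).mulVec g J := by
  have hs : ∀ I : Finset (Fin 6), I.card ≠ m → v I = 0 := by
    intro I hI
    have := hv I
    unfold kq at this
    rw [if_neg hI] at this
    exact hgt_odd this ((even_two_mul _).sub_odd odd_one)
  have hH : ∀ I, Hz (a + c - I.card) (v I) := by
    intro I
    by_cases hI : I.card = m
    · have := hv I
      unfold kq at this
      rw [if_pos hI, show 2 * a - (2 * (m : ℤ) - 2 * c) = 2 * (a + c - I.card) by
        rw [hI]; ring] at this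
      exact hg_iff_hz.1 this
    · rw [hs I hI]
      exact Hz.zero _
  have hW' : Hz 3 W := hg_iff_hz.1 hW
  obtain ⟨g, h1, h2, h3⟩ := ioW_exact hW' hW0 m (a + c) h0 h5 v hH hs hd
  refine ⟨g, fun I => ?_, fun J => ?_⟩
  · by_cases hI : I.card = m + 1
    · unfold kq
      rw [if_pos hI, show 2 * a - (2 * ((m + 1 : ℕ) : ℤ) - 2 * c) = 2 * (a + c - I.card) by
        rw [hI]; ring]
      exact hg_iff_hz.2 (h1 I)
    · rw [h2 I hI]
      exact isWeightedHomogeneous_zero _ _ _
  · rw [kmat_mulVec]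
    split_ifs with hJ
    · exact h3 J
    · rw [hs J hJ, sub_zero]
      exact dvd_zero _

/-- the twisted Koszul complex of `x₀, …, x₅` is exact in `Coh X` -/
theorem KX_exact (hW : Hg 6 W) (hW0 : W ≠ 0) (c : ℤ) (m : ℕ) :
    ((ShortComplex.mk (Kd W c (m + 1)) (Kd W c m) (Kd_Kd W c m)).map (piA W)).Exact := by
  refine pi_exact _ (6 - c) fun a ha x hx => ?_
  obtain ⟨v, hv, rfl⟩ := FrO.mk_surj W x
  have h1 : FrO.mk W ((kmat m).mulVec v) ((kmat_hgM c m).mulVec hv) = 0 := hx
  rw [FrO.mk_eq_zero] at h1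
  have hs : ∀ I : Finset (Fin 6), I.card ≠ m + 1 → v I = 0 := by
    intro I hI
    have := hv I
    unfold kq at this
    rw [if_neg hI] at this
    exact hgt_odd this ((even_two_mul _).sub_odd odd_one)
  obtain ⟨g, hg, h2⟩ := Kd_exact_at hW hW0 c (m + 1) a (by linarith) (by linarith) v hv fun J => by
    by_cases hJ : J.card = m
    · have := h1 J
      rw [kmat_mulVec, if_pos hJ] at this
      exact this
    · unfold H335.io
      refine Finset.dvd_sum fun i hi => ?_
      have hi' : i ∉ J := by simpa using hi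
      rw [hs _ (by rw [Finset.card_insert_of_notMem hi']; omega), map_zero, smul_zero]
      exact dvd_zero _
  refine ⟨FrO.mk W g hg, ?_⟩
  change FrO.mk W ((kmat (m + 1)).mulVec g) ((kmat_hgM c (m + 1)).mulVec hg) = FrO.mk W v hv
  rw [FrO.mk_eq]
  exact fun J => (dvd_sub_comm).1 (h2 J)

/-- the last map of the twisted Koszul complex is an epimorphism in `Coh X` -/
theorem KX_epi (hW : Hg 6 W) (hW0 : W ≠ 0) (c : ℤ) : Epi ((piA W).map (Kd W c 0)) := by
  refine pi_epi _ (6 - c) fun a ha x => ?_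
  obtain ⟨v, hv, rfl⟩ := FrO.mk_surj W x
  have hs : ∀ I : Finset (Fin 6), I.card ≠ 0 → v I = 0 := by
    intro I hI
    have := hv I
    unfold kq at this
    rw [if_neg hI] at this
    exact hgt_odd this ((even_two_mul _).sub_odd odd_one)
  obtain ⟨g, hg, h2⟩ := Kd_exact_at hW hW0 c 0 a (by linarith) (by linarith) v hv fun J => by
    unfold H335.io
    refine Finset.dvd_sum fun i hi => ?_
    have hi' : i ∉ J := by simpa using hi
    rw [hs _ (by rw [Finset.card_insert_of_notMem hi']; omega), map_zero, smul_zero]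
    exact dvd_zero _
  refine ⟨FrO.mk W g hg, ?_⟩
  change FrO.mk W ((kmat 0).mulVec g) ((kmat_hgM c 0).mulVec hg) = FrO.mk W v hv
  rw [FrO.mk_eq]
  exact fun J => (dvd_sub_comm).1 (h2 J)

end koszul

section dev

variable {C : Type 1} [Category.{1} C] [Abelian C] [HasDerivedCategory.{1} C]
  {I : DerivedCategory C → Prop}

/-- the property `I` for an object of the abelian category -/
def Sgl (I : DerivedCategory C → Prop) (A : C) : Prop :=
  I ((DerivedCategory.singleFunctor C 0).obj A)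

theorem Sgl.iso (hI : TriCl I) {A B : C} (e : A ≅ B) (h : Sgl I A) : Sgl I B :=
  hI.iso _ _ ((DerivedCategory.singleFunctor C 0).mapIso e) h

theorem Sgl.zero (hI : TriCl I) {A : C} (h : IsZero A) : Sgl I A :=
  hI.zero _ ((DerivedCategory.singleFunctor C 0).map_isZero h)

/-- the objects of the shifted complex `… → K₃ → K₂ → Z` -/
def shK (K : ℕ → C) (Z : C) : ℕ → C
  | 0 => Z
  | j + 1 => K (j + 2)

/-- the differentials of the shifted complex -/
def shd (K : ℕ → C) (Z : C) (d : ∀ j, K (j + 1) ⟶ K j) (p : K 2 ⟶ Z) :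
    ∀ j, shK K Z (j + 1) ⟶ shK K Z j
  | 0 => p
  | j + 1 => d (j + 2)

/-- an exact complex `… → K₂ → K₁ → K₀ → 0` -/
structure ExC (K : ℕ → C) (d : ∀ j, K (j + 1) ⟶ K j) : Prop where
  w : ∀ j, d (j + 1) ≫ d j = 0
  ex : ∀ j, (ShortComplex.mk (d (j + 1)) (d j) (w j)).Exact
  epi : Epi (d 0)

omit [HasDerivedCategory C] in
theorem ExC.sh {K : ℕ → C} {d : ∀ j, K (j + 1) ⟶ K j} (h : ExC K d) :
    ExC (shK K (kernel (d 0))) (shd K _ d (kernel.lift (d 0) (d 1) (h.w 0))) := by
  have hdp : d 2 ≫ kernel.lift (d 0) (d 1) (h.w 0) = 0 := by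
    rw [← cancel_mono (kernel.ι (d 0)), Category.assoc, kernel.lift_ι, h.w 1, zero_comp]
  refine ⟨?_, ?_, ?_⟩
  · rintro (_ | i)
    · exact hdp
    · exact h.w (i + 2)
  · rintro (_ | i)
    · change (ShortComplex.mk (d 2) (kernel.lift (d 0) (d 1) (h.w 0)) hdp).Exact
      have h1 := h.ex 1
      rw [ShortComplex.exact_iff_exact_up_to_refinements] at h1 ⊢
      intro A x hx
      exact h1 x (by
        change x ≫ d 1 = 0
        have h2 : x ≫ d 1 = (x ≫ kernel.lift (d 0) (d 1) (h.w 0)) ≫ kernel.ι (d 0) := by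
          rw [Category.assoc, kernel.lift_ι]
        rw [h2, show x ≫ kernel.lift (d 0) (d 1) (h.w 0) = 0 from hx, zero_comp])
    · exact h.ex (i + 2)
  · have := h.ex 0
    rw [ShortComplex.exact_iff_epi_kernel_lift] at this
    exact this

omit [HasDerivedCategory C] in
theorem ExC.ses {K : ℕ → C} {d : ∀ j, K (j + 1) ⟶ K j} (h : ExC K d) :
    (ShortComplex.mk (kernel.ι (d 0)) (d 0) (kernel.condition _)).ShortExact :=
  have := h.epi
  { exact := ShortComplex.exact_kernel (d 0) }

/-- the last object from the others -/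
theorem ExC.first (hI : TriCl I) (n : ℕ) : ∀ {K : ℕ → C} {d : ∀ j, K (j + 1) ⟶ K j},
    ExC K d → IsZero (K (n + 1)) → (∀ j, 1 ≤ j → j ≤ n → Sgl I (K j)) → Sgl I (K 0) := by
  induction n with
  | zero =>
    intro K d h hz _
    have := h.epi
    exact Sgl.zero hI (IsZero.of_epi (d 0) hz)
  | succ n ih =>
    intro K d h hz hK
    have h1 : Sgl I (kernel (d 0)) := by
      refine ih h.sh hz ?_
      rintro (_ | j) hj hj'
      · omega
      · exact hK (j + 2) (by omega) (by omega)
    exact H408.ses₃ hI h.ses h1 (hK 1 le_rfl (by omega))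

/-- the first object from the others -/
theorem ExC.last (hI : TriCl I) (n : ℕ) : ∀ {K : ℕ → C} {d : ∀ j, K (j + 1) ⟶ K j},
    ExC K d → IsZero (K (n + 1)) → (∀ j, j < n → Sgl I (K j)) → Sgl I (K n) := by
  induction n with
  | zero =>
    intro K d h hz _
    have := h.epi
    exact Sgl.zero hI (IsZero.of_epi (d 0) hz)
  | succ n ih =>
    intro K d h hz hK
    rcases Nat.eq_zero_or_pos n with rfl | hn
    · have h1 : IsZero (kernel (d 0)) := by
        have : Epi (kernel.lift (d 0) (d 1) (h.w 0)) := h.sh.epi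
        exact IsZero.of_epi (kernel.lift (d 0) (d 1) (h.w 0)) hz
      exact H408.ses₂ hI h.ses (Sgl.zero hI h1) (hK 0 (by omega))
    · have h1 : Sgl I (kernel (d 0)) := H408.ses₁ hI h.ses (hK 1 (by omega)) (hK 0 (by omega))
      obtain ⟨n, rfl⟩ := Nat.exists_eq_succ_of_ne_zero hn.ne'
      refine ih h.sh hz ?_
      rintro (_ | j) hj
      · exact h1
      · exact hK (j + 2) (by omega)

end dev

section final

open H408

variable {W : MvPolynomial (Fin 6) ℂ} [FrOK W]

/-- a free module with one relevant generator -/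
theorem FrA.iso_single {ι : Type} [Fintype ι] (q : ι → ℤ) (i₀ : ι)
    (h : ∀ i, Even (q i) → i = i₀) :
    Nonempty (FrA W q ≅ FrA W (fun _ : Fin 1 => q i₀)) := by
  classical
  have h1 : ∀ j : Fin 1, (fun _ : Fin 1 => q i₀) j = q ((fun _ : Fin 1 => i₀) j) := fun _ => rfl
  have i1 : Function.Injective (fun _ : Fin 1 => i₀) := fun a b _ => Subsingleton.elim a b
  refine ⟨⟨matA W (Pm fun _ : Fin 1 => i₀).transpose (hgM_Pt h1),
    matA W (Pm fun _ : Fin 1 => i₀) (hgM_Pm h1), ?_, ?_⟩⟩
  · rw [matA_comp, ← matA_one W HgM.one]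
    refine ((matSt W q q).2 _ _ _ _).2 fun i j hj => ?_
    rw [Pm_mul_Pt _ i1, Matrix.one_apply, h j hj]
    by_cases hi : i = i₀
    · subst hi
      simp
    · simp [hi]
  · rw [matA_comp, matA_congr W _ HgM.one (Pt_mul_Pm i1), matA_one]

variable {I : DerivedCategory (Coh W) → Prop}

theorem Sgl.free (hI : TriCl I) {ι : Type} [Fintype ι] (q : ι → ℤ)
    (h : ∀ i, Even (q i) → Sgl I ((piA W).obj (FrA W (fun _ : Fin 1 => q i)))) :
    Sgl I ((piA W).obj (FrA W q)) := by
  have key : ∀ (ι : Type) [Fintype ι], ∀ q : ι → ℤ,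
      (∀ i, Even (q i) → Sgl I ((piA W).obj (FrA W (fun _ : Fin 1 => q i)))) →
      Sgl I ((piA W).obj (FrA W q)) := by
    intro ι hι
    refine Fintype.induction_empty_option
      (P := fun (ι : Type) [Fintype ι] => ∀ q : ι → ℤ,
        (∀ i, Even (q i) → Sgl I ((piA W).obj (FrA W (fun _ : Fin 1 => q i)))) →
        Sgl I ((piA W).obj (FrA W q))) ?_ ?_ ?_ ι
    · intro α β _ e h q hq
      let _ : Fintype α := Fintype.ofEquiv β e.symm
      obtain ⟨e'⟩ := FrA.reindex W e q
      exact sgIso W hI e' (h _ fun i hi => hq _ hi)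
    · intro q _
      exact sgZero W hI (FrA.isZero_of_odd W q fun i => i.elim)
    · intro α _ h q hq
      obtain ⟨f, g, w, ⟨s⟩⟩ := FrA.split W q
      have hS := (s.map (piA W)).shortExact
      refine ses₂ hI hS ?_ (h _ fun i hi => hq _ hi)
      by_cases h0 : Even (q none)
      · exact hq none h0
      · exact sgZero W hI (FrA.isZero_of_odd W _ fun _ => h0)
  exact key ι q h

theorem kq_even {c : ℤ} {m : ℕ} {J : Finset (Fin 6)} (h : Even (kq c m J)) : J.card = m := by
  unfold kq at h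
  by_contra h'
  rw [if_neg h'] at h
  exact absurd h (by decide)

theorem kq_eq {c : ℤ} {m : ℕ} {J : Finset (Fin 6)} (h : J.card = m) :
    kq c m J = -2 * (c - m) := by
  unfold kq
  rw [if_pos h]
  ring

/-- the terms of the Koszul complex -/
theorem Sgl.kx (hI : TriCl I) (c : ℤ) (m : ℕ) (h : I (OD W (c - m))) :
    Sgl I ((piA W).obj (KX W c m)) := by
  refine Sgl.free hI _ fun J hJ => ?_
  rw [kq_eq (kq_even hJ)]
  exact h

theorem Sgl.kx_of (hI : TriCl I) (c : ℤ) (m : ℕ) (J : Finset (Fin 6)) (hJ : J.card = m)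
    (hu : ∀ J' : Finset (Fin 6), J'.card = m → J' = J) (h : Sgl I ((piA W).obj (KX W c m))) :
    I (OD W (c - m)) := by
  obtain ⟨e⟩ := FrA.iso_single (W := W) (kq c m) J fun i hi => hu i (kq_even hi)
  rw [kq_eq hJ] at e
  exact Sgl.iso hI ((piA W).mapIso e) h

theorem KX_isZero (c : ℤ) (m : ℕ) (hm : 6 < m) : IsZero (KX W c m) :=
  FrA.isZero_of_odd W _ fun J hJ => by
    have h1 := kq_even hJ
    have h2 := Finset.card_le_univ J
    simp at h2
    omega

theorem kx_exC (hW : Hg 6 W) (hW0 : W ≠ 0) (c : ℤ) :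
    ExC (fun m => (piA W).obj (KX W c m)) (fun m => (piA W).map (Kd W c m)) where
  w j := by rw [← Functor.map_comp, Kd_Kd, Functor.map_zero]
  ex j := KX_exact hW hW0 c j
  epi := KX_epi hW hW0 c

variable (W) in
/-- **KosSt** -/
theorem kosSt (hW : Hg 6 W) (hW0 : W ≠ 0) : KosSt W := by
  intro I hI c
  constructor
  · intro h
    have h1 : Sgl I ((piA W).obj (KX W (c + 6) 6)) := by
      refine ExC.last hI 6 (kx_exC hW hW0 (c + 6)) ((piA W).map_isZero (KX_isZero _ _ (by omega)))
        fun j hj => Sgl.kx hI _ _ ?_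
      have := h (6 - j) (by omega) (by omega)
      rwa [show c + (6 - (j : ℤ)) = c + 6 - j by ring] at this
    have h2 := Sgl.kx_of hI (c + 6) 6 Finset.univ (by simp)
      (fun J hJ => Finset.eq_univ_of_card J (by simpa using hJ)) h1
    rwa [show c + 6 - ((6 : ℕ) : ℤ) = c by push_cast; ring] at h2
  · intro h
    have h1 : Sgl I ((piA W).obj (KX W c 0)) := by
      refine ExC.first hI 6 (kx_exC hW hW0 c) ((piA W).map_isZero (KX_isZero _ _ (by omega)))
        fun j hj hj' => Sgl.kx hI _ _ ?_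
      exact h j (by omega) (by omega)
    have h2 := Sgl.kx_of hI c 0 ∅ (by simp) (fun J hJ => Finset.card_eq_zero.1 hJ) h1
    rwa [show c - ((0 : ℕ) : ℤ) = c by push_cast; ring] at h2

end final

end Vale.Agent.P287Z.O.L
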