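import Vale.Agent.P287Z.O.L.Bnd

/-!
# The triangle `T_{≤ c} → T → T_{> c}` in the derived category (P287 port of P294-L)
-/

set_option linter.unusedSectionVars false

open CategoryTheory Limits MvPolynomial Pretriangulated

namespace Vale.Agent.P287Z.O.L

open V

section general

universe w v u

variable {C : Type u} [Category.{v} C] [Abelian C] [HasDerivedCategory.{w} C]

/-- acyclic complexes are zero in the derived category -/
theorem isZero_Q_of_exactAt (K : CochainComplex C ℤ) (h : ∀ i, K.ExactAt i) :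
    IsZero (DerivedCategory.Q.obj K) := by
  have h1 : K.IsLE 0 := (CochainComplex.isLE_iff K 0).2 fun i _ => h i
  have h2 : K.IsGE 1 := (CochainComplex.isGE_iff K 1).2 fun i _ => h i
  have h3 : (DerivedCategory.Q.obj K).IsLE 0 := inferInstance
  have h4 : (DerivedCategory.Q.obj K).IsGE 1 := inferInstance
  exact DerivedCategory.TStructure.t.isZero _ 0 1 (by norm_num)

end general

variable {W : MvPolynomial (Fin 6) ℂ} {n m ν : ℕ} [FrOK W]
  [(grA W).ContainsZero] [(grA W).IsClosedUnderKernels]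
  [(grA W).IsClosedUnderCokernels] [(grA W).IsClosedUnderFiniteProducts]

theorem TT_exactAt (hA : AcySt W) (E : GMF W n) (i : ℤ) : (TT E).ExactAt i := by
  rw [HomologicalComplex.exactAt_iff' (TT E) (i - 1) i (i + 1) (by simp) (by simp)]
  exact hA E (i - 1) i (i + 1) (by ring) rfl

variable [(tors W).IsSerreClass]

/-- `Q π T(E) = 0` -/
theorem isZero_QPi_TT (hA : AcySt W) (E : GMF W n) : IsZero ((QPi W).obj (TT E)) := by
  refine isZero_Q_of_exactAt (C := Coh W)
    (((piA W).mapHomologicalComplex (ComplexShape.up ℤ)).obj (TT E)) fun i => ?_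
  have h1 : ((TT E).sc i).Exact := TT_exactAt hA E i
  exact h1.map (piA W)

/-- the image of the split short exact sequence in complexes of coherent sheaves -/
theorem TLG_shortExact (E : GMF W n) (c : ℤ) :
    ((TLG E c).map ((piA W).mapHomologicalComplex (ComplexShape.up ℤ))).ShortExact := by
  refine HomologicalComplex.shortExact_of_degreewise_shortExact _ fun k => ?_
  exact ((TLGσ E c k).map (piA W)).shortExact

/-- the connecting map -/
noncomputable def lgδ (E : GMF W n) (c : ℤ) :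
    (QPi W).obj (TG E c) ⟶ ((QPi W).obj (TL E c))⟦(1 : ℤ)⟧ :=
  DerivedCategory.triangleOfSESδ (TLG_shortExact E c)

/-- the distinguished triangle `Q π T_{≤ c} → Q π T → Q π T_{> c} →` -/
theorem triLG (E : GMF W n) (c : ℤ) :
    Triangle.mk ((QPi W).map (TLι E c)) ((QPi W).map (TGπ E c)) (lgδ E c) ∈
      distTriang (DerivedCategory (Coh W)) :=
  DerivedCategory.triangleOfSES_distinguished (TLG_shortExact E c)

theorem lgδ_natural {E : GMF W m} {F : GMF W n}
    {f : Matrix (Fin n) (Fin m) (MvPolynomial (Fin 6) ℂ)} (hf : Cl E F f) (c : ℤ) :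
    lgδ E c ≫ ((QPi W).map (Tf hf (· ≤ 2 * c)))⟦(1 : ℤ)⟧' =
      (QPi W).map (Tf hf (2 * c < ·)) ≫ lgδ F c :=
  DerivedCategory.triangleOfSESδ_naturality
    (f := ((piA W).mapHomologicalComplex (ComplexShape.up ℤ)).mapShortComplex.map (TLGmap hf c))
    (TLG_shortExact E c) (TLG_shortExact F c)

theorem lgδ_isIso (hA : AcySt W) (E : GMF W n) (c : ℤ) : IsIso (lgδ E c) :=
  (Triangle.isZero₂_iff_isIso₃ _ (triLG E c)).1 (isZero_QPi_TT hA E)

/-- `Q π T_{≤ c}(E) = Q π T_{> c}(E)[-1]` -/
noncomputable def lgIso (hA : AcySt W) (E : GMF W n) (c : ℤ) :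
    (QPi W).obj (TL E c) ≅ ((QPi W).obj (TG E c))⟦(-1 : ℤ)⟧ :=
  have := lgδ_isIso hA E c
  ((shiftFunctorCompIsoId (DerivedCategory (Coh W)) (1 : ℤ) (-1) (by norm_num)).app _).symm ≪≫
    (shiftFunctor (DerivedCategory (Coh W)) (-1 : ℤ)).mapIso (asIso (lgδ E c)).symm

/-- `FD E = Q π T_{> 0}(E)[-1]` -/
noncomputable def fdIso (hA : AcySt W) (E : GMF W n) :
    FD E ≅ ((QPi W).obj (TG E 0))⟦(-1 : ℤ)⟧ := lgIso hA E 0

end Vale.Agent.P287Z.O.L
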