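import Vale.Agent.P287Z.O.L.B2

/-!
# Maps between the complexes `T(E)_P` for several selections `P` (P287 port of P294-L)
-/

set_option linter.unusedSectionVars false

open CategoryTheory Limits MvPolynomial

namespace Vale.Agent.P287Z.O.L

open V

variable {W : MvPolynomial (Fin 6) ℂ} {n m ν : ℕ}

section

variable [FrOK W] {ι κ : Type} [Fintype ι] [Fintype κ] {q : ι → ℤ} {q' : κ → ℤ}

/-- criterion for the equality of two maps of free modules -/
theorem matA_ext {f g : Matrix κ ι (MvPolynomial (Fin 6) ℂ)} (hf : HgM q q' f)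
    (hg : HgM q q' g) (h : ∀ i j, Even (q j) → Even (q' i) → W ∣ f i j - g i j) :
    matA W f hf = matA W g hg := by
  refine ((matSt W q q').2 f g hf hg).2 fun i j hj => ?_
  by_cases hi : Even (q' i)
  · exact h i j hj hi
  · have h1 : ¬ 2 ∣ q j - q' i := by
      intro h2
      apply hi
      obtain ⟨r, hr⟩ := hj
      obtain ⟨s, hs⟩ := h2
      exact ⟨r - s, by lia⟩
    rw [hga_odd_eq_zero (hf i j) h1, hga_odd_eq_zero (hg i j) h1, sub_zero]
    exact dvd_zero _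

end

/-- selections between which the identity is a chain map -/
def Cpt (P Q : ℤ → Prop) : Prop := ∀ a b c : ℤ, c ≤ b → b ≤ a → P a → Q c → P b ∧ Q b

theorem cpt_self (P : ℤ → Prop) [Cvx P] : Cpt P P := by
  intro a b c h1 h2 ha hc
  rcases Cvx.out (P := P) with h | h
  · exact ⟨h _ _ h2 ha, h _ _ h2 ha⟩
  · exact ⟨h _ _ h1 hc, h _ _ h1 hc⟩

theorem cpt_le_true (c : ℤ) : Cpt (· ≤ 2 * c) (fun _ => True) :=
  fun _ _ _ _ h ha _ => ⟨h.trans ha, trivial⟩

theorem cpt_true_lt (c : ℤ) : Cpt (fun _ => True) (2 * c < ·) :=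
  fun _ _ _ h _ _ hc => ⟨trivial, lt_of_lt_of_le hc h⟩

theorem cpt_le_le {c c' : ℤ} (h : c ≤ c') : Cpt (· ≤ 2 * c) (· ≤ 2 * c') :=
  fun a b _ _ h2 ha _ => ⟨h2.trans ha, (show b ≤ 2 * c' by have : a ≤ 2 * c := ha; lia)⟩

theorem hgM_mask2 (E : GMF W m) (F : GMF W n) (P Q : ℤ → Prop) [DecidablePred P]
    [DecidablePred Q] (k l r : ℤ)
    (f : Matrix (Fin n) (Fin m) (MvPolynomial (Fin 6) ℂ)) (hf : ∀ i j, Hg (r + E.p j - F.p i) (f i j))
    (hr : r = 3 * l - 3 * k) : HgM (qsel E P k) (qsel F Q l)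
      (mask (fun i => Q (F.p i - 3 * l)) (fun j => P (E.p j - 3 * k)) f) := fun i j => by
  unfold mask qsel
  split_ifs with h1 h2 h3 h4
  · have := hf i j
    rwa [show r + E.p j - F.p i = E.p j - 3 * k - (F.p i - 3 * l) by rw [hr]; ring] at this
  all_goals first | exact isWeightedHomogeneous_zero _ _ _ | (exfalso; tauto)

theorem mask_mul2 (E : GMF W m) (F : GMF W n) (G : GMF W ν) (P Q R : ℤ → Prop) [DecidablePred P]
    [DecidablePred Q] [DecidablePred R]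
    (hPQR : ∀ a b c : ℤ, c ≤ b → b ≤ a → P a → R c → Q b)
    (k l r : ℤ) (f : Matrix (Fin n) (Fin m) (MvPolynomial (Fin 6) ℂ))
    (g : Matrix (Fin ν) (Fin n) (MvPolynomial (Fin 6) ℂ))
    (hf : ∀ i j, Hg (3 * l - 3 * k + E.p j - F.p i) (f i j))
    (hg : ∀ i j, Hg (3 * r - 3 * l + F.p j - G.p i) (g i j)) :
    mask (fun i => R (G.p i - 3 * r)) (fun j => Q (F.p j - 3 * l)) g *
      mask (fun i => Q (F.p i - 3 * l)) (fun j => P (E.p j - 3 * k)) f =
    mask (fun i => R (G.p i - 3 * r)) (fun j => P (E.p j - 3 * k)) (g * f) := by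
  ext1 i j
  rw [Matrix.mul_apply]
  unfold mask
  split_ifs with h
  · rw [Matrix.mul_apply]
    refine Finset.sum_congr rfl fun t _ => ?_
    by_cases ht : Q (F.p t - 3 * l)
    · rw [if_pos ⟨h.1, ht⟩, if_pos ⟨ht, h.2⟩]
    · rw [if_neg (fun h' => ht h'.2), if_neg (fun h' => ht h'.1), zero_mul]
      by_cases h1 : E.p j - 3 * k < F.p t - 3 * l
      · rw [hg_neg (hf t j) (by linarith), mul_zero]
      · by_cases h2 : F.p t - 3 * l < G.p i - 3 * r
        · rw [hg_neg (hg i t) (by linarith), zero_mul]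
        · exact absurd (hPQR _ _ _ (not_lt.1 h2) (not_lt.1 h1) h.2 h.1) ht
  · refine Finset.sum_eq_zero fun t _ => ?_
    by_cases hi : R (G.p i - 3 * r)
    · have hj : ¬ P (E.p j - 3 * k) := fun h' => h ⟨hi, h'⟩
      exact mul_eq_zero_of_right _ (if_neg fun h' => hj h'.2)
    · exact mul_eq_zero_of_left (if_neg fun h' => hi h'.1) _

theorem deg_cl {E : GMF W m} {F : GMF W n} {f : Matrix (Fin n) (Fin m) (MvPolynomial (Fin 6) ℂ)}
    (hf : Cl E F f) (k : ℤ) : ∀ i j, Hg (3 * k - 3 * k + E.p j - F.p i) (f i j) :=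
  fun i j => by have := hf.1 i j; rwa [show 3 * k - 3 * k + E.p j - F.p i =
        E.p j - F.p i by ring]

theorem deg_d (E : GMF W m) {k l : ℤ} (h : k + 1 = l) :
    ∀ i j, Hg (3 * l - 3 * k + E.p j - E.p i) (E.d i j) :=
  fun i j => by have := E.deg i j; rwa [show 3 * l - 3 * k + E.p j - E.p i =
        3 + E.p j - E.p i by rw [← h]; ring]

theorem cl_one (E : GMF W n) : Cl E E 1 := by
  refine ⟨fun i j => ?_, by rw [mul_one, one_mul]⟩
  by_cases h : i = j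
  · subst h
    rw [Matrix.one_apply_eq, sub_self]
    exact hga_one
  · rw [Matrix.one_apply_ne h]
    exact hga_zero _

theorem cl_mul {E : GMF W m} {F : GMF W n} {G : GMF W ν}
    {f : Matrix (Fin n) (Fin m) (MvPolynomial (Fin 6) ℂ)} (hf : Cl E F f)
    {g : Matrix (Fin ν) (Fin n) (MvPolynomial (Fin 6) ℂ)} (hg : Cl F G g) : Cl E G (g * f) := by
  refine ⟨fun i j => ?_, ?_⟩
  · rw [Matrix.mul_apply]
    exact hg_sum fun k => hg_mul (hg.1 i k) (hf.1 k j) (by ring)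
  · rw [← Matrix.mul_assoc, hg.2, Matrix.mul_assoc, hf.2, Matrix.mul_assoc]

theorem cl_sub {E : GMF W m} {F : GMF W n}
    {f g : Matrix (Fin n) (Fin m) (MvPolynomial (Fin 6) ℂ)} (hf : Cl E F f) (hg : Cl E F g) :
    Cl E F (f - g) :=
  ⟨fun i j => hga_sub (hf.1 i j) (hg.1 i j), by rw [Matrix.mul_sub, Matrix.sub_mul, hf.2, hg.2]⟩

variable [FrOK W]

theorem hgTPQ {E : GMF W m} {F : GMF W n}
    {f : Matrix (Fin n) (Fin m) (MvPolynomial (Fin 6) ℂ)}
    (hf : Cl E F f) (P Q : ℤ → Prop) [DecidablePred P] [DecidablePred Q] (k : ℤ) :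
    HgM (qsel E P k) (qsel F Q k)
      (mask (fun i => Q (F.p i - 3 * k)) (fun j => P (E.p j - 3 * k)) f) :=
  hgM_mask2 E F P Q k k 0 f (fun i j => by rw [zero_add]; exact hf.1 i j) (by ring)

/-- the map `T(E)_P → T(F)_Q` attached to a closed map -/
noncomputable def TPQ {E : GMF W m} {F : GMF W n}
    {f : Matrix (Fin n) (Fin m) (MvPolynomial (Fin 6) ℂ)}
    (hf : Cl E F f) (P Q : ℤ → Prop) [DecidablePred P] [DecidablePred Q] [Cvx P] [Cvx Q]
    (hPQ : Cpt P Q) : T E P ⟶ T F Q where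
  f k := (matA W _ (hgTPQ hf P Q k) : TX E P k ⟶ TX F Q k)
  comm' k l h := by
    have h1 : k + 1 = l := h
    rw [T_d _ _ _ _ h1, T_d _ _ _ _ h1]
    unfold Td
    refine (matA_comp W _ _ _ _).trans (Eq.trans ?_ (matA_comp W _ _ _ _).symm)
    refine matA_congr W _ _ ?_
    rw [mask_mul2 E F F P Q Q (fun a b c h1 h2 h3 h4 => (hPQ a b c h1 h2 h3 h4).2) k k l f F.d
      (deg_cl hf k) (deg_d F h1),
      mask_mul2 E E F P P Q (fun a b c h1 h2 h3 h4 => (hPQ a b c h1 h2 h3 h4).1) k l l E.d f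
      (deg_d E h1) (deg_cl hf l), hf.2]

theorem TPQ_f {E : GMF W m} {F : GMF W n}
    {f : Matrix (Fin n) (Fin m) (MvPolynomial (Fin 6) ℂ)}
    (hf : Cl E F f) (P Q : ℤ → Prop) [DecidablePred P] [DecidablePred Q] [Cvx P] [Cvx Q]
    (hPQ : Cpt P Q) (k : ℤ) : (TPQ hf P Q hPQ).f k =
      (matA W _ (hgTPQ hf P Q k) : TX E P k ⟶ TX F Q k) := rfl

theorem Tf_eq_TPQ {E : GMF W m} {F : GMF W n}
    {f : Matrix (Fin n) (Fin m) (MvPolynomial (Fin 6) ℂ)}
    (hf : Cl E F f) (P : ℤ → Prop) [DecidablePred P] [Cvx P] :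
    Tf hf P = TPQ hf P P (cpt_self P) := rfl

theorem TPQ_comp {E : GMF W m} {F : GMF W n} {G : GMF W ν}
    {f : Matrix (Fin n) (Fin m) (MvPolynomial (Fin 6) ℂ)} (hf : Cl E F f)
    {g : Matrix (Fin ν) (Fin n) (MvPolynomial (Fin 6) ℂ)} (hg : Cl F G g)
    (P Q R : ℤ → Prop) [DecidablePred P] [DecidablePred Q] [DecidablePred R] [Cvx P] [Cvx Q]
    [Cvx R] (hPQ : Cpt P Q) (hQR : Cpt Q R) (hPR : Cpt P R)
    (h : ∀ a b c : ℤ, c ≤ b → b ≤ a → P a → R c → Q b) :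
    TPQ hf P Q hPQ ≫ TPQ hg Q R hQR = TPQ (cl_mul hf hg) P R hPR := by
  ext1 k
  rw [HomologicalComplex.comp_f, TPQ_f, TPQ_f, TPQ_f]
  refine (matA_comp W _ _ _ _).trans (matA_congr W _ _ ?_)
  rw [mask_mul2 E F G P Q R h k k k f g (deg_cl hf k) (deg_cl hg k)]

theorem TPQ_congr {E : GMF W m} {F : GMF W n}
    {f g : Matrix (Fin n) (Fin m) (MvPolynomial (Fin 6) ℂ)} (hf : Cl E F f) (hg : Cl E F g)
    (P Q : ℤ → Prop) [DecidablePred P] [DecidablePred Q] [Cvx P] [Cvx Q] (hPQ : Cpt P Q)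
    (h : f = g) : TPQ hf P Q hPQ = TPQ hg P Q hPQ := by
  subst h; rfl

/-- the parity of the degree of a kept generator -/
theorem qsel_even {E : GMF W n} {P : ℤ → Prop} [DecidablePred P] {k : ℤ} {i : Fin n}
    (h : Even (qsel E P k i)) : P (E.p i - 3 * k) := by
  by_contra h'
  rw [qsel, if_neg h'] at h
  exact absurd h (by decide)

theorem mask_sub {ι κ : Type} (P : κ → Prop) (Q : ι → Prop) [DecidablePred P] [DecidablePred Q]
    (f g : Matrix κ ι (MvPolynomial (Fin 6) ℂ)) : mask P Q (f - g) = mask P Q f - mask P Q g := by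
  ext1 i j
  rw [Matrix.sub_apply]
  unfold mask
  split_ifs
  · rw [Matrix.sub_apply]
  · rw [sub_zero]

theorem mask_add {ι κ : Type} (P : κ → Prop) (Q : ι → Prop) [DecidablePred P] [DecidablePred Q]
    (f g : Matrix κ ι (MvPolynomial (Fin 6) ℂ)) : mask P Q (f + g) = mask P Q f + mask P Q g := by
  ext1 i j
  rw [Matrix.add_apply]
  unfold mask
  split_ifs
  · rw [Matrix.add_apply]
  · rw [add_zero]

theorem mask_smul {ι κ : Type} (P : κ → Prop) (Q : ι → Prop) [DecidablePred P] [DecidablePred Q]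
    (c : ℂ) (f : Matrix κ ι (MvPolynomial (Fin 6) ℂ)) : mask P Q (c • f) = c • mask P Q f := by
  ext1 i j
  rw [Matrix.smul_apply]
  unfold mask
  split_ifs
  · rw [Matrix.smul_apply]
  · rw [smul_zero]

/-- the identity -/
theorem TPQ_one (E : GMF W n) (P : ℤ → Prop) [DecidablePred P] [Cvx P] (h : Cpt P P) :
    TPQ (cl_one E) P P h = 𝟙 _ := by
  ext1 k
  rw [TPQ_f]
  refine Eq.trans ?_ (matA_one W (q := qsel E P k) HgM.one)
  refine matA_ext _ _ fun i j hj hi => ?_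
  rw [mask, if_pos ⟨qsel_even hi, qsel_even hj⟩, sub_self]
  exact dvd_zero _

theorem Tf_one (E : GMF W n) (P : ℤ → Prop) [DecidablePred P] [Cvx P] (h : Cl E E 1) :
    Tf h P = 𝟙 _ := TPQ_one E P (cpt_self P)

theorem Tf_comp {E : GMF W m} {F : GMF W n} {G : GMF W ν}
    {f : Matrix (Fin n) (Fin m) (MvPolynomial (Fin 6) ℂ)} (hf : Cl E F f)
    {g : Matrix (Fin ν) (Fin n) (MvPolynomial (Fin 6) ℂ)} (hg : Cl F G g)
    (P : ℤ → Prop) [DecidablePred P] [Cvx P] (h : Cl E G (g * f)) :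
    Tf hf P ≫ Tf hg P = Tf h P :=
  TPQ_comp hf hg P P P (cpt_self P) (cpt_self P) (cpt_self P)
    (fun a b c h1 h2 h3 h4 => (cpt_self P a b c h1 h2 h3 h4).1)

theorem TPQ_sub [(grA W).ContainsZero] [(grA W).IsClosedUnderKernels]
    [(grA W).IsClosedUnderCokernels] [(grA W).IsClosedUnderFiniteProducts]
    {E : GMF W m} {F : GMF W n}
    {f g : Matrix (Fin n) (Fin m) (MvPolynomial (Fin 6) ℂ)} (hf : Cl E F f) (hg : Cl E F g)
    (h : Cl E F (f - g))
    (P Q : ℤ → Prop) [DecidablePred P] [DecidablePred Q] [Cvx P] [Cvx Q] (hPQ : Cpt P Q) :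
    TPQ h P Q hPQ = TPQ hf P Q hPQ - TPQ hg P Q hPQ := by
  ext1 k
  rw [HomologicalComplex.sub_f_apply, TPQ_f, TPQ_f, TPQ_f]
  exact (matA_congr W _ _ (mask_sub _ _ _ _)).trans (matA_sub W (hgTPQ hf P Q k) (hgTPQ hg P Q k)
    ((hgTPQ hf P Q k).sub (hgTPQ hg P Q k)))

theorem TPQ_add [(grA W).ContainsZero] [(grA W).IsClosedUnderKernels]
    [(grA W).IsClosedUnderCokernels] [(grA W).IsClosedUnderFiniteProducts]
    {E : GMF W m} {F : GMF W n}
    {f g : Matrix (Fin n) (Fin m) (MvPolynomial (Fin 6) ℂ)} (hf : Cl E F f) (hg : Cl E F g)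
    (h : Cl E F (f + g))
    (P Q : ℤ → Prop) [DecidablePred P] [DecidablePred Q] [Cvx P] [Cvx Q] (hPQ : Cpt P Q) :
    TPQ h P Q hPQ = TPQ hf P Q hPQ + TPQ hg P Q hPQ := by
  ext1 k
  rw [HomologicalComplex.add_f_apply, TPQ_f, TPQ_f, TPQ_f]
  exact (matA_congr W _ _ (mask_add _ _ _ _)).trans (matA_add W (hgTPQ hf P Q k) (hgTPQ hg P Q k)
    ((hgTPQ hf P Q k).add (hgTPQ hg P Q k)))

/-- `T_{≤ c}(E) → T(E)` -/
noncomputable abbrev TLι (E : GMF W n) (c : ℤ) : TL E c ⟶ TT E :=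
  TPQ (cl_one E) (· ≤ 2 * c) (fun _ => True) (cpt_le_true c)

/-- `T(E) → T_{> c}(E)` -/
noncomputable abbrev TGπ (E : GMF W n) (c : ℤ) : TT E ⟶ TG E c :=
  TPQ (cl_one E) (fun _ => True) (2 * c < ·) (cpt_true_lt c)

/-- naturality of the inclusion -/
theorem TLι_natural {E : GMF W m} {F : GMF W n}
    {f : Matrix (Fin n) (Fin m) (MvPolynomial (Fin 6) ℂ)} (hf : Cl E F f) (c : ℤ) :
    Tf hf (· ≤ 2 * c) ≫ TLι F c = TLι E c ≫ Tf hf (fun _ => True) := by
  rw [Tf_eq_TPQ, Tf_eq_TPQ, TLι, TLι,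
    TPQ_comp hf (cl_one F) _ _ _ _ _ (cpt_le_true c) (fun a b c _ h2 h3 _ => h2.trans h3),
    TPQ_comp (cl_one E) hf _ _ _ _ _ (cpt_le_true c) (fun a b c _ h2 h3 _ => trivial)]
  exact TPQ_congr _ _ _ _ _ (by rw [Matrix.one_mul, Matrix.mul_one])

/-- naturality of the projection -/
theorem TGπ_natural {E : GMF W m} {F : GMF W n}
    {f : Matrix (Fin n) (Fin m) (MvPolynomial (Fin 6) ℂ)} (hf : Cl E F f) (c : ℤ) :
    Tf hf (fun _ => True) ≫ TGπ F c = TGπ E c ≫ Tf hf (2 * c < ·) := by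
  rw [Tf_eq_TPQ, Tf_eq_TPQ, TGπ, TGπ,
    TPQ_comp hf (cl_one F) _ _ _ _ _ (cpt_true_lt c) (fun a b c _ h2 h3 _ => trivial),
    TPQ_comp (cl_one E) hf _ _ _ _ _ (cpt_true_lt c) (fun a b _ h1 _ _ h4 =>
      lt_of_lt_of_le h4 h1)]
  exact TPQ_congr _ _ _ _ _ (by rw [Matrix.one_mul, Matrix.mul_one])

section Split

variable [(grA W).ContainsZero] [(grA W).IsClosedUnderKernels]
    [(grA W).IsClosedUnderCokernels] [(grA W).IsClosedUnderFiniteProducts]

theorem mask_one_mul (E : GMF W n) (P Q R : ℤ → Prop) [DecidablePred P]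
    [DecidablePred Q] [DecidablePred R] (k : ℤ) (i j : Fin n) :
    (mask (fun i => R (E.p i - 3 * k)) (fun j => Q (E.p j - 3 * k))
      (1 : Matrix (Fin n) (Fin n) (MvPolynomial (Fin 6) ℂ)) *
      mask (fun i => Q (E.p i - 3 * k)) (fun j => P (E.p j - 3 * k)) 1) i j =
    if i = j ∧ R (E.p i - 3 * k) ∧ Q (E.p i - 3 * k) ∧ P (E.p i - 3 * k) then 1 else 0 := by
  rw [Matrix.mul_apply]
  unfold mask
  rw [Finset.sum_eq_single i]
  · by_cases hij : i = j
    · subst hij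
      rw [Matrix.one_apply_eq]
      by_cases h1 : R (E.p i - 3 * k) <;> by_cases h2 : Q (E.p i - 3 * k) <;>
        by_cases h3 : P (E.p i - 3 * k) <;> simp [h1, h2, h3]
    · rw [Matrix.one_apply_ne hij]
      simp [hij]
  · intro t _ ht
    rw [Matrix.one_apply_ne (fun h => ht h.symm), ite_self, zero_mul]
  · intro h
    exact absurd (Finset.mem_univ i) h

/-- the degreewise projection or inclusion -/
noncomputable def prj (E : GMF W n) (P Q : ℤ → Prop) [DecidablePred P] [DecidablePred Q]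
    (k : ℤ) : TX E P k ⟶ TX E Q k :=
  matA W (mask (fun i => Q (E.p i - 3 * k)) (fun j => P (E.p j - 3 * k)) 1)
    (hgTPQ (cl_one E) P Q k)

theorem prj_comp_self (E : GMF W n) (P Q : ℤ → Prop) [DecidablePred P] [DecidablePred Q]
    (h : ∀ a, P a → Q a) (k : ℤ) : prj E P Q k ≫ prj E Q P k = 𝟙 _ := by
  unfold prj
  refine (matA_comp W _ _ _ _).trans (Eq.trans ?_ (matA_one W (q := qsel E P k) HgM.one))
  refine matA_ext _ _ fun i j hj hi => ?_
  rw [mask_one_mul]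
  have h1 := qsel_even hi
  have h2 := h _ h1
  by_cases hij : i = j
  · subst hij
    rw [if_pos ⟨rfl, h1, h2, h1⟩, Matrix.one_apply_eq, sub_self]
    exact dvd_zero _
  · rw [if_neg (fun h => hij h.1), Matrix.one_apply_ne hij, sub_self]
    exact dvd_zero _

theorem prj_comp_zero (E : GMF W n) (P Q R : ℤ → Prop) [DecidablePred P] [DecidablePred Q]
    [DecidablePred R] (h : ∀ a, P a → R a → False) (k : ℤ) :
    prj E P Q k ≫ prj E Q R k = 0 := by
  unfold prj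
  refine (matA_comp W _ _ _ _).trans (matA_eq_zero W _ _ fun i j => ?_)
  rw [mask_one_mul, if_neg (fun h' => h _ h'.2.2.2 h'.2.1)]
  exact dvd_zero _

theorem prj_add (E : GMF W n) (P Q R : ℤ → Prop) [DecidablePred P] [DecidablePred Q]
    [DecidablePred R] (h : ∀ a, R a ↔ (P a ∨ Q a)) (h' : ∀ a, P a → Q a → False) (k : ℤ) :
    prj E R P k ≫ prj E P R k + prj E R Q k ≫ prj E Q R k = 𝟙 _ := by
  unfold prj
  refine (congrArg₂ (· + ·) (matA_comp W _ _ _ _) (matA_comp W _ _ _ _)).trans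
    ((matA_add W _ _ (((hgTPQ (cl_one E) R P k).mul (hgTPQ (cl_one E) P R k)).add
      ((hgTPQ (cl_one E) R Q k).mul (hgTPQ (cl_one E) Q R k)))).symm.trans ?_)
  refine Eq.trans ?_ (matA_one W (q := qsel E R k) HgM.one)
  refine matA_ext _ _ fun i j hj hi => ?_
  rw [Matrix.add_apply, mask_one_mul, mask_one_mul]
  have h1 := qsel_even hi
  by_cases hij : i = j
  · subst hij
    rw [Matrix.one_apply_eq]
    rcases (h _).1 h1 with h2 | h2
    · rw [if_pos ⟨rfl, h1, h2, h1⟩, if_neg (fun h3 => h' _ h2 h3.2.2.1), add_zero, sub_self]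
      exact dvd_zero _
    · rw [if_neg (fun h3 => h' _ h3.2.2.1 h2), if_pos ⟨rfl, h1, h2, h1⟩, zero_add, sub_self]
      exact dvd_zero _
  · rw [if_neg (fun h => hij h.1), if_neg (fun h => hij h.1), Matrix.one_apply_ne hij, add_zero,
      sub_self]
    exact dvd_zero _

/-- `0 → T(E)_P → T(E)_R → T(E)_Q → 0` -/
noncomputable def TS (E : GMF W n) (P Q R : ℤ → Prop) [DecidablePred P] [DecidablePred Q]
    [DecidablePred R] [Cvx P] [Cvx Q] [Cvx R] (hPR : Cpt P R) (hRQ : Cpt R Q)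
    (h' : ∀ a, P a → Q a → False) : ShortComplex (CochainComplex (GA W) ℤ) :=
  ShortComplex.mk (TPQ (cl_one E) P R hPR) (TPQ (cl_one E) R Q hRQ) (by
    ext1 k
    exact prj_comp_zero E P R Q h' k)

/-- the splittings -/
noncomputable def TSplit (E : GMF W n) (P Q R : ℤ → Prop) [DecidablePred P] [DecidablePred Q]
    [DecidablePred R] [Cvx P] [Cvx Q] [Cvx R] (hPR : Cpt P R) (hRQ : Cpt R Q)
    (h' : ∀ a, P a → Q a → False) (h : ∀ a, R a ↔ (P a ∨ Q a)) (k : ℤ) :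
    ((TS E P Q R hPR hRQ h').map (HomologicalComplex.eval (GA W) _ k)).Splitting where
  r := prj E R P k
  s := prj E Q R k
  f_r := prj_comp_self E P R (fun a ha => (h a).2 (Or.inl ha)) k
  s_g := prj_comp_self E Q R (fun a ha => (h a).2 (Or.inr ha)) k
  id := prj_add E P Q R h h' k

/-- the distinguished triangle `T(E)_P → T(E)_R → T(E)_Q →` -/
theorem TS_dist (E : GMF W n) (P Q R : ℤ → Prop) [DecidablePred P] [DecidablePred Q]
    [DecidablePred R] [Cvx P] [Cvx Q] [Cvx R] (hPR : Cpt P R) (hRQ : Cpt R Q)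
    (h' : ∀ a, P a → Q a → False) (h : ∀ a, R a ↔ (P a ∨ Q a)) :
    ∃ δ, Pretriangulated.Triangle.mk
      ((HomotopyCategory.quotient (GA W) (ComplexShape.up ℤ)).map (TPQ (cl_one E) P R hPR))
      ((HomotopyCategory.quotient (GA W) (ComplexShape.up ℤ)).map (TPQ (cl_one E) R Q hRQ)) δ ∈
        Pretriangulated.distinguishedTriangles :=
  ⟨_, (HomotopyCategory.distinguished_iff_iso_trianglehOfDegreewiseSplit _).2
    ⟨TS E P Q R hPR hRQ h', TSplit E P Q R hPR hRQ h' h, ⟨Iso.refl _⟩⟩⟩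

end Split

end Vale.Agent.P287Z.O.L
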